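import Vale.Agent.P300.H266.Model
import Vale.Agent.P300.H142.Kap

/-!
# P300 / PROJ, block GROW: the changes of node are admissible

`gN ν : V → V` is the transition from the node chart `ν` of `H142/Kap.lean` to the chart `5`:
`kap ν w = kap 5 (gN ν w)`; `gN' ν` is its inverse; `exp (phi (gN ν w)) |mN ν w|² = exp (phi w)`.
-/

set_option linter.all false

open Set


namespace Vale.Agent.P300.H435

open Vale.Agent.P300.H266

/-! ### the anharmonic group -/

/-- `1 + |c|² + |1 - c|²` -/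
noncomputable def Nc (c : ℂ) : ℝ := 1 + ‖c‖ ^ 2 + ‖1 - c‖ ^ 2

theorem exp_phi_Nc (w : Fin 2 → ℂ) : Real.exp (phi w) = ∏ j, Nc (cr j w) := exp_phi w

theorem wt_gen {c' c μ x y z : ℂ} (h0 : μ = x) (h1 : c' * μ = y) (h2 : (1 - c') * μ = z)
    (h : ‖x‖ ^ 2 + ‖y‖ ^ 2 + ‖z‖ ^ 2 = Nc c) : Nc c' * ‖μ‖ ^ 2 = Nc c := by
  have h3 : Nc c' * ‖μ‖ ^ 2 = ‖μ‖ ^ 2 + ‖c' * μ‖ ^ 2 + ‖(1 - c') * μ‖ ^ 2 := by
    rw [norm_mul, norm_mul, Nc]
    ring
  rw [h3, h1, h2, h0, h]

theorem wt_id {c' c : ℂ} (h : c' = c) : Nc c' * ‖(1 : ℂ)‖ ^ 2 = Nc c := by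
  rw [h, norm_one, one_pow, mul_one]

theorem wt_sub {c' c : ℂ} (h : c' = 1 - c) : Nc c' * ‖(1 : ℂ)‖ ^ 2 = Nc c := by
  rw [h, norm_one, one_pow, mul_one, Nc, Nc, sub_sub_cancel]
  ring

theorem wt_inv {c' c : ℂ} (h : c' * c = 1) : Nc c' * ‖c‖ ^ 2 = Nc c :=
  wt_gen rfl h (show (1 - c') * c = c - 1 by rw [sub_mul, h, one_mul]) (by
    rw [Nc, norm_one, norm_sub_rev c 1]
    ring)

theorem wt_invsub {c' c : ℂ} (h : c' * (1 - c) = 1) : Nc c' * ‖1 - c‖ ^ 2 = Nc c :=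
  wt_gen rfl h (show (1 - c') * (1 - c) = -c by rw [sub_mul, h]; ring) (by
    rw [Nc, norm_one, norm_neg]
    ring)

theorem wt_div {c' c : ℂ} (h : c' * (1 - c) = -c) : Nc c' * ‖1 - c‖ ^ 2 = Nc c :=
  wt_gen rfl h (show (1 - c') * (1 - c) = 1 by rw [sub_mul, h]; ring) (by
    rw [Nc, norm_one, norm_neg]
    ring)

theorem wt_subdiv {c' c : ℂ} (h : c' * c = -(1 - c)) : Nc c' * ‖c‖ ^ 2 = Nc c :=
  wt_gen rfl h (show (1 - c') * c = 1 by rw [sub_mul, h]; ring) (by
    rw [Nc, norm_one, norm_neg]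
    ring)

theorem wt_prod {a b μ : Fin 5 → ℂ} (π : Fin 5 → Fin 5) (hπ : Function.Bijective π)
    (h : ∀ j, Nc (a (π j)) * ‖μ j‖ ^ 2 = Nc (b j)) :
    (∏ j, Nc (a j)) * ‖∏ j, μ j‖ ^ 2 = ∏ j, Nc (b j) := by
  rw [← (Equiv.ofBijective π hπ).prod_comp (fun j => Nc (a j)), norm_prod, ← Finset.prod_pow,
    ← Finset.prod_mul_distrib]
  exact Finset.prod_congr rfl fun j _ => h j

/-! ### the cross ratios on `V` -/

theorem V_ne {w : Fin 2 → ℂ} (hw : w ∈ V) : w 0 ≠ 0 ∧ w 1 ≠ 0 ∧ 1 - w 0 ≠ 0 ∧ 1 - w 1 ≠ 0 ∧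
    1 - w 0 * w 1 ≠ 0 :=
  ⟨hw.1, hw.2.1, fun h => hw.2.2.1 (sub_eq_zero.1 h).symm,
    fun h => hw.2.2.2.1 (sub_eq_zero.1 h).symm, fun h => hw.2.2.2.2 (sub_eq_zero.1 h).symm⟩

theorem mem_V {a b : ℂ} (h0 : a ≠ 0) (h1 : b ≠ 0) (h2 : 1 - a ≠ 0) (h3 : 1 - b ≠ 0)
    (h4 : 1 - a * b ≠ 0) : (![a, b] : Fin 2 → ℂ) ∈ V := by
  refine ⟨h0, h1, ?_, ?_, ?_⟩
  · intro h; exact h2 (sub_eq_zero.2 h.symm)
  · intro h; exact h3 (sub_eq_zero.2 h.symm)
  · intro h; exact h4 (sub_eq_zero.2 h.symm)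

theorem one_sub_cr {w : Fin 2 → ℂ} (hw : w ∈ V) : 1 - cr 3 w = w 0 * (1 - w 1) / (1 - w 0 * w 1) ∧
    1 - cr 4 w = w 1 * (1 - w 0) / (1 - w 0 * w 1) := by
  obtain ⟨-, -, -, -, huv⟩ := V_ne hw
  rw [cr_three, cr_four]
  constructor <;> · rw [eq_div_iff huv, sub_mul, div_mul_cancel₀ _ huv]; ring

theorem cr_ne {w : Fin 2 → ℂ} (hw : w ∈ V) (j : Fin 5) : cr j w ≠ 0 ∧ 1 - cr j w ≠ 0 := by
  obtain ⟨hu, hv, hu1, hv1, huv⟩ := V_ne hw
  fin_cases j
  · exact ⟨hu, hu1⟩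
  · exact ⟨hv, hv1⟩
  · exact ⟨mul_ne_zero hu hv, huv⟩
  · refine ⟨div_ne_zero hu1 huv, ?_⟩
    show 1 - cr 3 w ≠ 0
    rw [(one_sub_cr hw).1]
    exact div_ne_zero (mul_ne_zero hu hv1) huv
  · refine ⟨div_ne_zero hv1 huv, ?_⟩
    show 1 - cr 4 w ≠ 0
    rw [(one_sub_cr hw).2]
    exact div_ne_zero (mul_ne_zero hv hu1) huv

theorem d0 (w : Fin 2 → ℂ) : DifferentiableAt ℂ (fun w : Fin 2 → ℂ => w 0) w :=
  differentiableAt_apply 0 w

theorem d1 (w : Fin 2 → ℂ) : DifferentiableAt ℂ (fun w : Fin 2 → ℂ => w 1) w :=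
  differentiableAt_apply 1 w

theorem cr_diff {w : Fin 2 → ℂ} (hw : w ∈ V) (j : Fin 5) : DifferentiableAt ℂ (cr j) w := by
  obtain ⟨hu, hv, hu1, hv1, huv⟩ := V_ne hw
  fin_cases j
  · exact d0 w
  · exact d1 w
  · exact (d0 w).mul (d1 w)
  · show DifferentiableAt ℂ (fun w : Fin 2 → ℂ => (1 - w 0) / (1 - w 0 * w 1)) w
    fun_prop (disch := assumption)
  · show DifferentiableAt ℂ (fun w : Fin 2 → ℂ => (1 - w 1) / (1 - w 0 * w 1)) w
    fun_prop (disch := assumption)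

/-- A tuple of two functions -/
theorem diff_pair {f g : (Fin 2 → ℂ) → ℂ} {w : Fin 2 → ℂ} (hf : DifferentiableAt ℂ f w)
    (hg : DifferentiableAt ℂ g w) : DifferentiableAt ℂ (fun w => (![f w, g w] : Fin 2 → ℂ)) w := by
  rw [differentiableAt_pi]
  intro i
  fin_cases i
  · exact hf
  · exact hg

/-! ### node 0 -/

noncomputable def g0 (w : Fin 2 → ℂ) : Fin 2 → ℂ := ![(w 0 * (1 - w 1)) / (1 - w 0 * w 1), (1 - w 0 * w 1) / (1 - w 1)]
noncomputable def g0' (w : Fin 2 → ℂ) : Fin 2 → ℂ := ![w 0 * w 1, -(1 - w 1) / (w 1 * (1 - w 0))]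
noncomputable def m0 (w : Fin 2 → ℂ) : ℂ := ∏ j, (![1, (1 - cr 1 w), (1 - cr 2 w), 1, cr 4 w] : Fin 5 → ℂ) j

theorem f0 {u v : ℂ} (hu : u ≠ 0) (hv : v ≠ 0) (hu1 : 1 - u ≠ 0) (hv1 : 1 - v ≠ 0)
    (huv : 1 - u * v ≠ 0) :
    1 - ((u * (1 - v)) / (1 - u * v)) = (1 - u) / (1 - u * v) ∧
    1 - ((1 - u * v) / (1 - v)) = -(v * (1 - u)) / (1 - v) ∧
    1 - ((u * (1 - v)) / (1 - u * v)) * ((1 - u * v) / (1 - v)) = (1 - u) := by
  have huv2 : 1 - v * u ≠ 0 := by rwa [mul_comm]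
  refine ⟨?_, ?_, ?_⟩ <;> first | done | rfl | (field_simp; done) | (field_simp; ring1) | ring1

theorem f0' {u v : ℂ} (hu : u ≠ 0) (hv : v ≠ 0) (hu1 : 1 - u ≠ 0) (hv1 : 1 - v ≠ 0)
    (huv : 1 - u * v ≠ 0) :
    1 - (u * v) = (1 - u * v) ∧
    1 - (-(1 - v) / (v * (1 - u))) = (1 - u * v) / (v * (1 - u)) ∧
    1 - (u * v) * (-(1 - v) / (v * (1 - u))) = (1 - u * v) / (1 - u) := by
  have huv2 : 1 - v * u ≠ 0 := by rwa [mul_comm]
  refine ⟨?_, ?_, ?_⟩ <;> first | done | rfl | (field_simp; done) | (field_simp; ring1) | ring1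

theorem a0_maps : MapsTo g0 V V := fun w hw => by
    obtain ⟨hu, hv, hu1, hv1, huv⟩ := V_ne hw
    obtain ⟨h1, h2, h3⟩ := f0 hu hv hu1 hv1 huv
    refine mem_V (div_ne_zero (mul_ne_zero hu hv1) huv) (div_ne_zero huv hv1) ?_ ?_ ?_
    · rw [h1]; exact (div_ne_zero hu1 huv)
    · rw [h2]; exact (div_ne_zero (neg_ne_zero.2 (mul_ne_zero hv hu1)) hv1)
    · rw [h3]; exact hu1

theorem a0_maps' : MapsTo g0' V V := fun w hw => by
    obtain ⟨hu, hv, hu1, hv1, huv⟩ := V_ne hw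
    obtain ⟨h1, h2, h3⟩ := f0' hu hv hu1 hv1 huv
    refine mem_V (mul_ne_zero hu hv) (div_ne_zero (neg_ne_zero.2 hv1) (mul_ne_zero hv hu1)) ?_ ?_ ?_
    · rw [h1]; exact huv
    · rw [h2]; exact (div_ne_zero huv (mul_ne_zero hv hu1))
    · rw [h3]; exact (div_ne_zero huv hu1)

theorem a0_diff : DifferentiableOn ℂ g0 V := fun w hw => by
    obtain ⟨hu, hv, hu1, hv1, huv⟩ := V_ne hw
    refine (diff_pair (f := fun w => (w 0 * (1 - w 1)) / (1 - w 0 * w 1)) (g := fun w => (1 - w 0 * w 1) / (1 - w 1)) ?_ ?_).differentiableWithinAt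
    · fun_prop (disch := assumption)
    · fun_prop (disch := assumption)

theorem a0_diff' : DifferentiableOn ℂ g0' V := fun w hw => by
    obtain ⟨hu, hv, hu1, hv1, huv⟩ := V_ne hw
    refine (diff_pair (f := fun w => w 0 * w 1) (g := fun w => -(1 - w 1) / (w 1 * (1 - w 0))) ?_ ?_).differentiableWithinAt
    · fun_prop (disch := assumption)
    · have hd := (mul_ne_zero hv hu1)
      fun_prop (disch := assumption)

theorem a0_left : LeftInvOn g0' g0 V := fun w hw => by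
    obtain ⟨hu, hv, hu1, hv1, huv⟩ := V_ne hw
    have huv2 : 1 - w 1 * w 0 ≠ 0 := by rwa [mul_comm]
    obtain ⟨a, ha⟩ : ∃ a : ℂ, a = (w 0 * (1 - w 1)) / (1 - w 0 * w 1) := ⟨_, rfl⟩
    obtain ⟨b, hb⟩ : ∃ b : ℂ, b = (1 - w 0 * w 1) / (1 - w 1) := ⟨_, rfl⟩
    have hG : g0 w = ![a, b] := by rw [ha, hb]; rfl
    have h1 : 1 - a = (1 - w 0) / (1 - w 0 * w 1) := by subst ha; exact (f0 hu hv hu1 hv1 huv).1
    have h2 : 1 - b = -(w 1 * (1 - w 0)) / (1 - w 1) := by subst hb; exact (f0 hu hv hu1 hv1 huv).2.1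
    have h3 : 1 - a * b = (1 - w 0) := by subst ha hb; exact (f0 hu hv hu1 hv1 huv).2.2
    rw [hG]
    funext i
    fin_cases i
    · show a * b = w 0
      rw [ha, hb]
      first | done | rfl | (field_simp; done) | (field_simp; ring1) | ring1
    · show -(1 - b) / (b * (1 - a)) = w 1
      rw [h1, h2, hb]
      first | done | rfl | (field_simp; done) | (field_simp; ring1) | ring1

theorem a0_right : LeftInvOn g0 g0' V := fun w hw => by
    obtain ⟨hu, hv, hu1, hv1, huv⟩ := V_ne hw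
    have huv2 : 1 - w 1 * w 0 ≠ 0 := by rwa [mul_comm]
    obtain ⟨a, ha⟩ : ∃ a : ℂ, a = w 0 * w 1 := ⟨_, rfl⟩
    obtain ⟨b, hb⟩ : ∃ b : ℂ, b = -(1 - w 1) / (w 1 * (1 - w 0)) := ⟨_, rfl⟩
    have hG : g0' w = ![a, b] := by rw [ha, hb]; rfl
    have h1 : 1 - a = (1 - w 0 * w 1) := by subst ha; exact (f0' hu hv hu1 hv1 huv).1
    have h2 : 1 - b = (1 - w 0 * w 1) / (w 1 * (1 - w 0)) := by subst hb; exact (f0' hu hv hu1 hv1 huv).2.1
    have h3 : 1 - a * b = (1 - w 0 * w 1) / (1 - w 0) := by subst ha hb; exact (f0' hu hv hu1 hv1 huv).2.2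
    rw [hG]
    funext i
    fin_cases i
    · show (a * (1 - b)) / (1 - a * b) = w 0
      rw [h2, h3, ha]
      first | done | rfl | (field_simp; done) | (field_simp; ring1) | ring1
    · show (1 - a * b) / (1 - b) = w 1
      rw [h2, h3]
      first | done | rfl | (field_simp; done) | (field_simp; ring1) | ring1

theorem a0_mdiff : DifferentiableOn ℂ m0 V := fun w hw => by
    refine DifferentiableAt.differentiableWithinAt ?_
    show DifferentiableAt ℂ (fun w => ∏ j, (![1, (1 - cr 1 w), (1 - cr 2 w), 1, cr 4 w] : Fin 5 → ℂ) j) w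
    simp only [Fin.prod_univ_five]
    exact (((((differentiableAt_const 1).fun_mul ((differentiableAt_const 1).fun_sub (cr_diff hw 1))).fun_mul ((differentiableAt_const 1).fun_sub (cr_diff hw 2))).fun_mul (differentiableAt_const 1)).fun_mul (cr_diff hw 4))

theorem a0_mne : ∀ w ∈ V, m0 w ≠ 0 := fun w hw => by
    refine Finset.prod_ne_zero_iff.2 fun j _ => ?_
    fin_cases j
    · exact one_ne_zero
    · exact (cr_ne hw 1).2
    · exact (cr_ne hw 2).2
    · exact one_ne_zero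
    · exact (cr_ne hw 4).1

theorem a0_wt : ∀ w ∈ V, Real.exp (phi (g0 w)) * ‖m0 w‖ ^ 2 = Real.exp (phi w) := fun w hw => by
    obtain ⟨hu, hv, hu1, hv1, huv⟩ := V_ne hw
    have huv2 : 1 - w 1 * w 0 ≠ 0 := by rwa [mul_comm]
    obtain ⟨e3, e4⟩ := one_sub_cr hw
    obtain ⟨a, ha⟩ : ∃ a : ℂ, a = (w 0 * (1 - w 1)) / (1 - w 0 * w 1) := ⟨_, rfl⟩
    obtain ⟨b, hb⟩ : ∃ b : ℂ, b = (1 - w 0 * w 1) / (1 - w 1) := ⟨_, rfl⟩
    have hG : g0 w = ![a, b] := by rw [ha, hb]; rfl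
    have h1 : 1 - a = (1 - w 0) / (1 - w 0 * w 1) := by subst ha; exact (f0 hu hv hu1 hv1 huv).1
    have h2 : 1 - b = -(w 1 * (1 - w 0)) / (1 - w 1) := by subst hb; exact (f0 hu hv hu1 hv1 huv).2.1
    have h3 : 1 - a * b = (1 - w 0) := by subst ha hb; exact (f0 hu hv hu1 hv1 huv).2.2
    rw [exp_phi_Nc, exp_phi_Nc]
    refine wt_prod ![2, 4, 3, 0, 1] (by decide) fun j => ?_
    rw [hG]
    fin_cases j
    · refine wt_id ?_
      show a * b = w 0
      rw [ha, hb]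
      first | done | rfl | (field_simp; done) | (field_simp; ring1) | ring1
    · refine wt_div ?_
      show (1 - b) / (1 - a * b) * (1 - w 1) = -w 1
      rw [h2, h3]
      first | done | rfl | (field_simp; done) | (field_simp; ring1) | ring1
    · refine wt_invsub ?_
      show (1 - a) / (1 - a * b) * (1 - w 0 * w 1) = 1
      rw [h1, h3]
      first | done | rfl | (field_simp; done) | (field_simp; ring1) | ring1
    · refine wt_sub ?_
      show a = (1 - (1 - w 0) / (1 - w 0 * w 1))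
      rw [cr_three] at e3
      rw [ha, e3]
      first | done | rfl | (field_simp; done) | (field_simp; ring1) | ring1
    · refine wt_inv ?_
      show b * ((1 - w 1) / (1 - w 0 * w 1)) = 1
      rw [hb]
      first | done | rfl | (field_simp; done) | (field_simp; ring1) | ring1

theorem adm0 : Adm g0 g0' m0 :=
  ⟨a0_maps, a0_maps', a0_diff, a0_diff', a0_left, a0_right, a0_mdiff, a0_mne, a0_wt⟩

/-! ### node 1 -/

noncomputable def g1 (w : Fin 2 → ℂ) : Fin 2 → ℂ := ![w 0 * w 1, 1 / w 1]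
noncomputable def g1' (w : Fin 2 → ℂ) : Fin 2 → ℂ := ![w 0 * w 1, 1 / w 1]
noncomputable def m1 (w : Fin 2 → ℂ) : ℂ := ∏ j, (![1, cr 1 w, 1, cr 3 w, (1 - cr 4 w)] : Fin 5 → ℂ) j

theorem f1 {u v : ℂ} (hu : u ≠ 0) (hv : v ≠ 0) (hu1 : 1 - u ≠ 0) (hv1 : 1 - v ≠ 0)
    (huv : 1 - u * v ≠ 0) :
    1 - (u * v) = (1 - u * v) ∧
    1 - (1 / v) = -(1 - v) / v ∧
    1 - (u * v) * (1 / v) = (1 - u) := by
  have huv2 : 1 - v * u ≠ 0 := by rwa [mul_comm]
  refine ⟨?_, ?_, ?_⟩ <;> first | done | rfl | (field_simp; done) | (field_simp; ring1) | ring1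

theorem f1' {u v : ℂ} (hu : u ≠ 0) (hv : v ≠ 0) (hu1 : 1 - u ≠ 0) (hv1 : 1 - v ≠ 0)
    (huv : 1 - u * v ≠ 0) :
    1 - (u * v) = (1 - u * v) ∧
    1 - (1 / v) = -(1 - v) / v ∧
    1 - (u * v) * (1 / v) = (1 - u) := by
  have huv2 : 1 - v * u ≠ 0 := by rwa [mul_comm]
  refine ⟨?_, ?_, ?_⟩ <;> first | done | rfl | (field_simp; done) | (field_simp; ring1) | ring1

theorem a1_maps : MapsTo g1 V V := fun w hw => by
    obtain ⟨hu, hv, hu1, hv1, huv⟩ := V_ne hw
    obtain ⟨h1, h2, h3⟩ := f1 hu hv hu1 hv1 huv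
    refine mem_V (mul_ne_zero hu hv) (div_ne_zero one_ne_zero hv) ?_ ?_ ?_
    · rw [h1]; exact huv
    · rw [h2]; exact (div_ne_zero (neg_ne_zero.2 hv1) hv)
    · rw [h3]; exact hu1

theorem a1_maps' : MapsTo g1' V V := fun w hw => by
    obtain ⟨hu, hv, hu1, hv1, huv⟩ := V_ne hw
    obtain ⟨h1, h2, h3⟩ := f1' hu hv hu1 hv1 huv
    refine mem_V (mul_ne_zero hu hv) (div_ne_zero one_ne_zero hv) ?_ ?_ ?_
    · rw [h1]; exact huv
    · rw [h2]; exact (div_ne_zero (neg_ne_zero.2 hv1) hv)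
    · rw [h3]; exact hu1

theorem a1_diff : DifferentiableOn ℂ g1 V := fun w hw => by
    obtain ⟨hu, hv, hu1, hv1, huv⟩ := V_ne hw
    refine (diff_pair (f := fun w => w 0 * w 1) (g := fun w => 1 / w 1) ?_ ?_).differentiableWithinAt
    · fun_prop (disch := assumption)
    · fun_prop (disch := assumption)

theorem a1_diff' : DifferentiableOn ℂ g1' V := fun w hw => by
    obtain ⟨hu, hv, hu1, hv1, huv⟩ := V_ne hw
    refine (diff_pair (f := fun w => w 0 * w 1) (g := fun w => 1 / w 1) ?_ ?_).differentiableWithinAt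
    · fun_prop (disch := assumption)
    · fun_prop (disch := assumption)

theorem a1_left : LeftInvOn g1' g1 V := fun w hw => by
    obtain ⟨hu, hv, hu1, hv1, huv⟩ := V_ne hw
    have huv2 : 1 - w 1 * w 0 ≠ 0 := by rwa [mul_comm]
    obtain ⟨a, ha⟩ : ∃ a : ℂ, a = w 0 * w 1 := ⟨_, rfl⟩
    obtain ⟨b, hb⟩ : ∃ b : ℂ, b = 1 / w 1 := ⟨_, rfl⟩
    have hG : g1 w = ![a, b] := by rw [ha, hb]; rfl
    have h1 : 1 - a = (1 - w 0 * w 1) := by subst ha; exact (f1 hu hv hu1 hv1 huv).1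
    have h2 : 1 - b = -(1 - w 1) / w 1 := by subst hb; exact (f1 hu hv hu1 hv1 huv).2.1
    have h3 : 1 - a * b = (1 - w 0) := by subst ha hb; exact (f1 hu hv hu1 hv1 huv).2.2
    rw [hG]
    funext i
    fin_cases i
    · show a * b = w 0
      rw [ha, hb]
      first | done | rfl | (field_simp; done) | (field_simp; ring1) | ring1
    · show 1 / b = w 1
      rw [hb]
      first | done | rfl | (field_simp; done) | (field_simp; ring1) | ring1

theorem a1_right : LeftInvOn g1 g1' V := fun w hw => by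
    obtain ⟨hu, hv, hu1, hv1, huv⟩ := V_ne hw
    have huv2 : 1 - w 1 * w 0 ≠ 0 := by rwa [mul_comm]
    obtain ⟨a, ha⟩ : ∃ a : ℂ, a = w 0 * w 1 := ⟨_, rfl⟩
    obtain ⟨b, hb⟩ : ∃ b : ℂ, b = 1 / w 1 := ⟨_, rfl⟩
    have hG : g1' w = ![a, b] := by rw [ha, hb]; rfl
    have h1 : 1 - a = (1 - w 0 * w 1) := by subst ha; exact (f1' hu hv hu1 hv1 huv).1
    have h2 : 1 - b = -(1 - w 1) / w 1 := by subst hb; exact (f1' hu hv hu1 hv1 huv).2.1
    have h3 : 1 - a * b = (1 - w 0) := by subst ha hb; exact (f1' hu hv hu1 hv1 huv).2.2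
    rw [hG]
    funext i
    fin_cases i
    · show a * b = w 0
      rw [ha, hb]
      first | done | rfl | (field_simp; done) | (field_simp; ring1) | ring1
    · show 1 / b = w 1
      rw [hb]
      first | done | rfl | (field_simp; done) | (field_simp; ring1) | ring1

theorem a1_mdiff : DifferentiableOn ℂ m1 V := fun w hw => by
    refine DifferentiableAt.differentiableWithinAt ?_
    show DifferentiableAt ℂ (fun w => ∏ j, (![1, cr 1 w, 1, cr 3 w, (1 - cr 4 w)] : Fin 5 → ℂ) j) w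
    simp only [Fin.prod_univ_five]
    exact (((((differentiableAt_const 1).fun_mul (cr_diff hw 1)).fun_mul (differentiableAt_const 1)).fun_mul (cr_diff hw 3)).fun_mul ((differentiableAt_const 1).fun_sub (cr_diff hw 4)))

theorem a1_mne : ∀ w ∈ V, m1 w ≠ 0 := fun w hw => by
    refine Finset.prod_ne_zero_iff.2 fun j _ => ?_
    fin_cases j
    · exact one_ne_zero
    · exact (cr_ne hw 1).1
    · exact one_ne_zero
    · exact (cr_ne hw 3).1
    · exact (cr_ne hw 4).2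

theorem a1_wt : ∀ w ∈ V, Real.exp (phi (g1 w)) * ‖m1 w‖ ^ 2 = Real.exp (phi w) := fun w hw => by
    obtain ⟨hu, hv, hu1, hv1, huv⟩ := V_ne hw
    have huv2 : 1 - w 1 * w 0 ≠ 0 := by rwa [mul_comm]
    obtain ⟨e3, e4⟩ := one_sub_cr hw
    obtain ⟨a, ha⟩ : ∃ a : ℂ, a = w 0 * w 1 := ⟨_, rfl⟩
    obtain ⟨b, hb⟩ : ∃ b : ℂ, b = 1 / w 1 := ⟨_, rfl⟩
    have hG : g1 w = ![a, b] := by rw [ha, hb]; rfl
    have h1 : 1 - a = (1 - w 0 * w 1) := by subst ha; exact (f1 hu hv hu1 hv1 huv).1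
    have h2 : 1 - b = -(1 - w 1) / w 1 := by subst hb; exact (f1 hu hv hu1 hv1 huv).2.1
    have h3 : 1 - a * b = (1 - w 0) := by subst ha hb; exact (f1 hu hv hu1 hv1 huv).2.2
    rw [exp_phi_Nc, exp_phi_Nc]
    refine wt_prod ![2, 1, 0, 3, 4] (by decide) fun j => ?_
    rw [hG]
    fin_cases j
    · refine wt_id ?_
      show a * b = w 0
      rw [ha, hb]
      first | done | rfl | (field_simp; done) | (field_simp; ring1) | ring1
    · refine wt_inv ?_
      show b * w 1 = 1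
      rw [hb]
      first | done | rfl | (field_simp; done) | (field_simp; ring1) | ring1
    · refine wt_id ?_
      show a = (w 0 * w 1)
      rw [ha]
      first | done | rfl | (field_simp; done) | (field_simp; ring1) | ring1
    · refine wt_inv ?_
      show (1 - a) / (1 - a * b) * ((1 - w 0) / (1 - w 0 * w 1)) = 1
      rw [h1, h3]
      first | done | rfl | (field_simp; done) | (field_simp; ring1) | ring1
    · refine wt_div ?_
      show (1 - b) / (1 - a * b) * (1 - (1 - w 1) / (1 - w 0 * w 1)) = -((1 - w 1) / (1 - w 0 * w 1))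
      rw [cr_four] at e4
      rw [h2, h3, e4]
      first | done | rfl | (field_simp; done) | (field_simp; ring1) | ring1

theorem adm1 : Adm g1 g1' m1 :=
  ⟨a1_maps, a1_maps', a1_diff, a1_diff', a1_left, a1_right, a1_mdiff, a1_mne, a1_wt⟩

/-! ### node 2 -/

noncomputable def g2 (w : Fin 2 → ℂ) : Fin 2 → ℂ := ![(w 1 * (1 - w 0)) / (1 - w 0 * w 1), 1 / w 1]
noncomputable def g2' (w : Fin 2 → ℂ) : Fin 2 → ℂ := ![(1 - w 0 * w 1) / (1 - w 0), 1 / w 1]
noncomputable def m2 (w : Fin 2 → ℂ) : ℂ := ∏ j, (![cr 0 w, cr 1 w, cr 2 w, 1, 1] : Fin 5 → ℂ) j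

theorem f2 {u v : ℂ} (hu : u ≠ 0) (hv : v ≠ 0) (hu1 : 1 - u ≠ 0) (hv1 : 1 - v ≠ 0)
    (huv : 1 - u * v ≠ 0) :
    1 - ((v * (1 - u)) / (1 - u * v)) = (1 - v) / (1 - u * v) ∧
    1 - (1 / v) = -(1 - v) / v ∧
    1 - ((v * (1 - u)) / (1 - u * v)) * (1 / v) = (u * (1 - v)) / (1 - u * v) := by
  have huv2 : 1 - v * u ≠ 0 := by rwa [mul_comm]
  refine ⟨?_, ?_, ?_⟩ <;> first | done | rfl | (field_simp; done) | (field_simp; ring1) | ring1

theorem f2' {u v : ℂ} (hu : u ≠ 0) (hv : v ≠ 0) (hu1 : 1 - u ≠ 0) (hv1 : 1 - v ≠ 0)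
    (huv : 1 - u * v ≠ 0) :
    1 - ((1 - u * v) / (1 - u)) = -(u * (1 - v)) / (1 - u) ∧
    1 - (1 / v) = -(1 - v) / v ∧
    1 - ((1 - u * v) / (1 - u)) * (1 / v) = -(1 - v) / (v * (1 - u)) := by
  have huv2 : 1 - v * u ≠ 0 := by rwa [mul_comm]
  refine ⟨?_, ?_, ?_⟩ <;> first | done | rfl | (field_simp; done) | (field_simp; ring1) | ring1

theorem a2_maps : MapsTo g2 V V := fun w hw => by
    obtain ⟨hu, hv, hu1, hv1, huv⟩ := V_ne hw
    obtain ⟨h1, h2, h3⟩ := f2 hu hv hu1 hv1 huv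
    refine mem_V (div_ne_zero (mul_ne_zero hv hu1) huv) (div_ne_zero one_ne_zero hv) ?_ ?_ ?_
    · rw [h1]; exact (div_ne_zero hv1 huv)
    · rw [h2]; exact (div_ne_zero (neg_ne_zero.2 hv1) hv)
    · rw [h3]; exact (div_ne_zero (mul_ne_zero hu hv1) huv)

theorem a2_maps' : MapsTo g2' V V := fun w hw => by
    obtain ⟨hu, hv, hu1, hv1, huv⟩ := V_ne hw
    obtain ⟨h1, h2, h3⟩ := f2' hu hv hu1 hv1 huv
    refine mem_V (div_ne_zero huv hu1) (div_ne_zero one_ne_zero hv) ?_ ?_ ?_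
    · rw [h1]; exact (div_ne_zero (neg_ne_zero.2 (mul_ne_zero hu hv1)) hu1)
    · rw [h2]; exact (div_ne_zero (neg_ne_zero.2 hv1) hv)
    · rw [h3]; exact (div_ne_zero (neg_ne_zero.2 hv1) (mul_ne_zero hv hu1))

theorem a2_diff : DifferentiableOn ℂ g2 V := fun w hw => by
    obtain ⟨hu, hv, hu1, hv1, huv⟩ := V_ne hw
    refine (diff_pair (f := fun w => (w 1 * (1 - w 0)) / (1 - w 0 * w 1)) (g := fun w => 1 / w 1) ?_ ?_).differentiableWithinAt
    · fun_prop (disch := assumption)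
    · fun_prop (disch := assumption)

theorem a2_diff' : DifferentiableOn ℂ g2' V := fun w hw => by
    obtain ⟨hu, hv, hu1, hv1, huv⟩ := V_ne hw
    refine (diff_pair (f := fun w => (1 - w 0 * w 1) / (1 - w 0)) (g := fun w => 1 / w 1) ?_ ?_).differentiableWithinAt
    · fun_prop (disch := assumption)
    · fun_prop (disch := assumption)

theorem a2_left : LeftInvOn g2' g2 V := fun w hw => by
    obtain ⟨hu, hv, hu1, hv1, huv⟩ := V_ne hw
    have huv2 : 1 - w 1 * w 0 ≠ 0 := by rwa [mul_comm]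
    obtain ⟨a, ha⟩ : ∃ a : ℂ, a = (w 1 * (1 - w 0)) / (1 - w 0 * w 1) := ⟨_, rfl⟩
    obtain ⟨b, hb⟩ : ∃ b : ℂ, b = 1 / w 1 := ⟨_, rfl⟩
    have hG : g2 w = ![a, b] := by rw [ha, hb]; rfl
    have h1 : 1 - a = (1 - w 1) / (1 - w 0 * w 1) := by subst ha; exact (f2 hu hv hu1 hv1 huv).1
    have h2 : 1 - b = -(1 - w 1) / w 1 := by subst hb; exact (f2 hu hv hu1 hv1 huv).2.1
    have h3 : 1 - a * b = (w 0 * (1 - w 1)) / (1 - w 0 * w 1) := by subst ha hb; exact (f2 hu hv hu1 hv1 huv).2.2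
    rw [hG]
    funext i
    fin_cases i
    · show (1 - a * b) / (1 - a) = w 0
      rw [h1, h3]
      first | done | rfl | (field_simp; done) | (field_simp; ring1) | ring1
    · show 1 / b = w 1
      rw [hb]
      first | done | rfl | (field_simp; done) | (field_simp; ring1) | ring1

theorem a2_right : LeftInvOn g2 g2' V := fun w hw => by
    obtain ⟨hu, hv, hu1, hv1, huv⟩ := V_ne hw
    have huv2 : 1 - w 1 * w 0 ≠ 0 := by rwa [mul_comm]
    obtain ⟨a, ha⟩ : ∃ a : ℂ, a = (1 - w 0 * w 1) / (1 - w 0) := ⟨_, rfl⟩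
    obtain ⟨b, hb⟩ : ∃ b : ℂ, b = 1 / w 1 := ⟨_, rfl⟩
    have hG : g2' w = ![a, b] := by rw [ha, hb]; rfl
    have h1 : 1 - a = -(w 0 * (1 - w 1)) / (1 - w 0) := by subst ha; exact (f2' hu hv hu1 hv1 huv).1
    have h2 : 1 - b = -(1 - w 1) / w 1 := by subst hb; exact (f2' hu hv hu1 hv1 huv).2.1
    have h3 : 1 - a * b = -(1 - w 1) / (w 1 * (1 - w 0)) := by subst ha hb; exact (f2' hu hv hu1 hv1 huv).2.2
    rw [hG]
    funext i
    fin_cases i
    · show (b * (1 - a)) / (1 - a * b) = w 0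
      rw [h1, h3, hb]
      first | done | rfl | (field_simp; done) | (field_simp; ring1) | ring1
    · show 1 / b = w 1
      rw [hb]
      first | done | rfl | (field_simp; done) | (field_simp; ring1) | ring1

theorem a2_mdiff : DifferentiableOn ℂ m2 V := fun w hw => by
    refine DifferentiableAt.differentiableWithinAt ?_
    show DifferentiableAt ℂ (fun w => ∏ j, (![cr 0 w, cr 1 w, cr 2 w, 1, 1] : Fin 5 → ℂ) j) w
    simp only [Fin.prod_univ_five]
    exact (((((cr_diff hw 0).fun_mul (cr_diff hw 1)).fun_mul (cr_diff hw 2)).fun_mul (differentiableAt_const 1)).fun_mul (differentiableAt_const 1))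

theorem a2_mne : ∀ w ∈ V, m2 w ≠ 0 := fun w hw => by
    refine Finset.prod_ne_zero_iff.2 fun j _ => ?_
    fin_cases j
    · exact (cr_ne hw 0).1
    · exact (cr_ne hw 1).1
    · exact (cr_ne hw 2).1
    · exact one_ne_zero
    · exact one_ne_zero

theorem a2_wt : ∀ w ∈ V, Real.exp (phi (g2 w)) * ‖m2 w‖ ^ 2 = Real.exp (phi w) := fun w hw => by
    obtain ⟨hu, hv, hu1, hv1, huv⟩ := V_ne hw
    have huv2 : 1 - w 1 * w 0 ≠ 0 := by rwa [mul_comm]
    obtain ⟨e3, e4⟩ := one_sub_cr hw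
    obtain ⟨a, ha⟩ : ∃ a : ℂ, a = (w 1 * (1 - w 0)) / (1 - w 0 * w 1) := ⟨_, rfl⟩
    obtain ⟨b, hb⟩ : ∃ b : ℂ, b = 1 / w 1 := ⟨_, rfl⟩
    have hG : g2 w = ![a, b] := by rw [ha, hb]; rfl
    have h1 : 1 - a = (1 - w 1) / (1 - w 0 * w 1) := by subst ha; exact (f2 hu hv hu1 hv1 huv).1
    have h2 : 1 - b = -(1 - w 1) / w 1 := by subst hb; exact (f2 hu hv hu1 hv1 huv).2.1
    have h3 : 1 - a * b = (w 0 * (1 - w 1)) / (1 - w 0 * w 1) := by subst ha hb; exact (f2 hu hv hu1 hv1 huv).2.2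
    rw [exp_phi_Nc, exp_phi_Nc]
    refine wt_prod ![3, 1, 4, 2, 0] (by decide) fun j => ?_
    rw [hG]
    fin_cases j
    · refine wt_inv ?_
      show (1 - a) / (1 - a * b) * w 0 = 1
      rw [h1, h3]
      first | done | rfl | (field_simp; done) | (field_simp; ring1) | ring1
    · refine wt_inv ?_
      show b * w 1 = 1
      rw [hb]
      first | done | rfl | (field_simp; done) | (field_simp; ring1) | ring1
    · refine wt_subdiv ?_
      show (1 - b) / (1 - a * b) * (w 0 * w 1) = -(1 - w 0 * w 1)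
      rw [h2, h3]
      first | done | rfl | (field_simp; done) | (field_simp; ring1) | ring1
    · refine wt_id ?_
      show a * b = ((1 - w 0) / (1 - w 0 * w 1))
      rw [ha, hb]
      first | done | rfl | (field_simp; done) | (field_simp; ring1) | ring1
    · refine wt_sub ?_
      show a = (1 - (1 - w 1) / (1 - w 0 * w 1))
      rw [cr_four] at e4
      rw [ha, e4]
      first | done | rfl | (field_simp; done) | (field_simp; ring1) | ring1

theorem adm2 : Adm g2 g2' m2 :=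
  ⟨a2_maps, a2_maps', a2_diff, a2_diff', a2_left, a2_right, a2_mdiff, a2_mne, a2_wt⟩

/-! ### node 3 -/

noncomputable def g3 (w : Fin 2 → ℂ) : Fin 2 → ℂ := ![(1 - w 1), (1 - w 0 * w 1) / (1 - w 1)]
noncomputable def g3' (w : Fin 2 → ℂ) : Fin 2 → ℂ := ![(1 - w 0 * w 1) / (1 - w 0), (1 - w 0)]
noncomputable def m3 (w : Fin 2 → ℂ) : ℂ := ∏ j, (![cr 0 w, 1, 1, (1 - cr 3 w), cr 4 w] : Fin 5 → ℂ) j

theorem f3 {u v : ℂ} (hu : u ≠ 0) (hv : v ≠ 0) (hu1 : 1 - u ≠ 0) (hv1 : 1 - v ≠ 0)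
    (huv : 1 - u * v ≠ 0) :
    1 - ((1 - v)) = v ∧
    1 - ((1 - u * v) / (1 - v)) = -(v * (1 - u)) / (1 - v) ∧
    1 - ((1 - v)) * ((1 - u * v) / (1 - v)) = u * v := by
  have huv2 : 1 - v * u ≠ 0 := by rwa [mul_comm]
  refine ⟨?_, ?_, ?_⟩ <;> first | done | rfl | (field_simp; done) | (field_simp; ring1) | ring1

theorem f3' {u v : ℂ} (hu : u ≠ 0) (hv : v ≠ 0) (hu1 : 1 - u ≠ 0) (hv1 : 1 - v ≠ 0)
    (huv : 1 - u * v ≠ 0) :
    1 - ((1 - u * v) / (1 - u)) = -(u * (1 - v)) / (1 - u) ∧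
    1 - ((1 - u)) = u ∧
    1 - ((1 - u * v) / (1 - u)) * ((1 - u)) = u * v := by
  have huv2 : 1 - v * u ≠ 0 := by rwa [mul_comm]
  refine ⟨?_, ?_, ?_⟩ <;> first | done | rfl | (field_simp; done) | (field_simp; ring1) | ring1

theorem a3_maps : MapsTo g3 V V := fun w hw => by
    obtain ⟨hu, hv, hu1, hv1, huv⟩ := V_ne hw
    obtain ⟨h1, h2, h3⟩ := f3 hu hv hu1 hv1 huv
    refine mem_V hv1 (div_ne_zero huv hv1) ?_ ?_ ?_
    · rw [h1]; exact hv
    · rw [h2]; exact (div_ne_zero (neg_ne_zero.2 (mul_ne_zero hv hu1)) hv1)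
    · rw [h3]; exact (mul_ne_zero hu hv)

theorem a3_maps' : MapsTo g3' V V := fun w hw => by
    obtain ⟨hu, hv, hu1, hv1, huv⟩ := V_ne hw
    obtain ⟨h1, h2, h3⟩ := f3' hu hv hu1 hv1 huv
    refine mem_V (div_ne_zero huv hu1) hu1 ?_ ?_ ?_
    · rw [h1]; exact (div_ne_zero (neg_ne_zero.2 (mul_ne_zero hu hv1)) hu1)
    · rw [h2]; exact hu
    · rw [h3]; exact (mul_ne_zero hu hv)

theorem a3_diff : DifferentiableOn ℂ g3 V := fun w hw => by
    obtain ⟨hu, hv, hu1, hv1, huv⟩ := V_ne hw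
    refine (diff_pair (f := fun w => (1 - w 1)) (g := fun w => (1 - w 0 * w 1) / (1 - w 1)) ?_ ?_).differentiableWithinAt
    · fun_prop (disch := assumption)
    · fun_prop (disch := assumption)

theorem a3_diff' : DifferentiableOn ℂ g3' V := fun w hw => by
    obtain ⟨hu, hv, hu1, hv1, huv⟩ := V_ne hw
    refine (diff_pair (f := fun w => (1 - w 0 * w 1) / (1 - w 0)) (g := fun w => (1 - w 0)) ?_ ?_).differentiableWithinAt
    · fun_prop (disch := assumption)
    · fun_prop (disch := assumption)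

theorem a3_left : LeftInvOn g3' g3 V := fun w hw => by
    obtain ⟨hu, hv, hu1, hv1, huv⟩ := V_ne hw
    have huv2 : 1 - w 1 * w 0 ≠ 0 := by rwa [mul_comm]
    obtain ⟨a, ha⟩ : ∃ a : ℂ, a = (1 - w 1) := ⟨_, rfl⟩
    obtain ⟨b, hb⟩ : ∃ b : ℂ, b = (1 - w 0 * w 1) / (1 - w 1) := ⟨_, rfl⟩
    have hG : g3 w = ![a, b] := by rw [ha, hb]; rfl
    have h1 : 1 - a = w 1 := by subst ha; exact (f3 hu hv hu1 hv1 huv).1
    have h2 : 1 - b = -(w 1 * (1 - w 0)) / (1 - w 1) := by subst hb; exact (f3 hu hv hu1 hv1 huv).2.1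
    have h3 : 1 - a * b = w 0 * w 1 := by subst ha hb; exact (f3 hu hv hu1 hv1 huv).2.2
    rw [hG]
    funext i
    fin_cases i
    · show (1 - a * b) / (1 - a) = w 0
      rw [h1, h3]
      first | done | rfl | (field_simp; done) | (field_simp; ring1) | ring1
    · show (1 - a) = w 1
      rw [h1]
      first | done | rfl | (field_simp; done) | (field_simp; ring1) | ring1

theorem a3_right : LeftInvOn g3 g3' V := fun w hw => by
    obtain ⟨hu, hv, hu1, hv1, huv⟩ := V_ne hw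
    have huv2 : 1 - w 1 * w 0 ≠ 0 := by rwa [mul_comm]
    obtain ⟨a, ha⟩ : ∃ a : ℂ, a = (1 - w 0 * w 1) / (1 - w 0) := ⟨_, rfl⟩
    obtain ⟨b, hb⟩ : ∃ b : ℂ, b = (1 - w 0) := ⟨_, rfl⟩
    have hG : g3' w = ![a, b] := by rw [ha, hb]; rfl
    have h1 : 1 - a = -(w 0 * (1 - w 1)) / (1 - w 0) := by subst ha; exact (f3' hu hv hu1 hv1 huv).1
    have h2 : 1 - b = w 0 := by subst hb; exact (f3' hu hv hu1 hv1 huv).2.1
    have h3 : 1 - a * b = w 0 * w 1 := by subst ha hb; exact (f3' hu hv hu1 hv1 huv).2.2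
    rw [hG]
    funext i
    fin_cases i
    · show (1 - b) = w 0
      rw [h2]
      first | done | rfl | (field_simp; done) | (field_simp; ring1) | ring1
    · show (1 - a * b) / (1 - b) = w 1
      rw [h2, h3]
      first | done | rfl | (field_simp; done) | (field_simp; ring1) | ring1

theorem a3_mdiff : DifferentiableOn ℂ m3 V := fun w hw => by
    refine DifferentiableAt.differentiableWithinAt ?_
    show DifferentiableAt ℂ (fun w => ∏ j, (![cr 0 w, 1, 1, (1 - cr 3 w), cr 4 w] : Fin 5 → ℂ) j) w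
    simp only [Fin.prod_univ_five]
    exact (((((cr_diff hw 0).fun_mul (differentiableAt_const 1)).fun_mul (differentiableAt_const 1)).fun_mul ((differentiableAt_const 1).fun_sub (cr_diff hw 3))).fun_mul (cr_diff hw 4))

theorem a3_mne : ∀ w ∈ V, m3 w ≠ 0 := fun w hw => by
    refine Finset.prod_ne_zero_iff.2 fun j _ => ?_
    fin_cases j
    · exact (cr_ne hw 0).1
    · exact one_ne_zero
    · exact one_ne_zero
    · exact (cr_ne hw 3).2
    · exact (cr_ne hw 4).1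

theorem a3_wt : ∀ w ∈ V, Real.exp (phi (g3 w)) * ‖m3 w‖ ^ 2 = Real.exp (phi w) := fun w hw => by
    obtain ⟨hu, hv, hu1, hv1, huv⟩ := V_ne hw
    have huv2 : 1 - w 1 * w 0 ≠ 0 := by rwa [mul_comm]
    obtain ⟨e3, e4⟩ := one_sub_cr hw
    obtain ⟨a, ha⟩ : ∃ a : ℂ, a = (1 - w 1) := ⟨_, rfl⟩
    obtain ⟨b, hb⟩ : ∃ b : ℂ, b = (1 - w 0 * w 1) / (1 - w 1) := ⟨_, rfl⟩
    have hG : g3 w = ![a, b] := by rw [ha, hb]; rfl
    have h1 : 1 - a = w 1 := by subst ha; exact (f3 hu hv hu1 hv1 huv).1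
    have h2 : 1 - b = -(w 1 * (1 - w 0)) / (1 - w 1) := by subst hb; exact (f3 hu hv hu1 hv1 huv).2.1
    have h3 : 1 - a * b = w 0 * w 1 := by subst ha hb; exact (f3 hu hv hu1 hv1 huv).2.2
    rw [exp_phi_Nc, exp_phi_Nc]
    refine wt_prod ![3, 0, 2, 4, 1] (by decide) fun j => ?_
    rw [hG]
    fin_cases j
    · refine wt_inv ?_
      show (1 - a) / (1 - a * b) * w 0 = 1
      rw [h1, h3]
      first | done | rfl | (field_simp; done) | (field_simp; ring1) | ring1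
    · refine wt_sub ?_
      show a = (1 - w 1)
      rw [ha]
      first | done | rfl | (field_simp; done) | (field_simp; ring1) | ring1
    · refine wt_sub ?_
      show a * b = (1 - w 0 * w 1)
      rw [ha, hb]
      first | done | rfl | (field_simp; done) | (field_simp; ring1) | ring1
    · refine wt_div ?_
      show (1 - b) / (1 - a * b) * (1 - (1 - w 0) / (1 - w 0 * w 1)) = -((1 - w 0) / (1 - w 0 * w 1))
      rw [cr_three] at e3
      rw [h2, h3, e3]
      first | done | rfl | (field_simp; done) | (field_simp; ring1) | ring1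
    · refine wt_inv ?_
      show b * ((1 - w 1) / (1 - w 0 * w 1)) = 1
      rw [hb]
      first | done | rfl | (field_simp; done) | (field_simp; ring1) | ring1

theorem adm3 : Adm g3 g3' m3 :=
  ⟨a3_maps, a3_maps', a3_diff, a3_diff', a3_left, a3_right, a3_mdiff, a3_mne, a3_wt⟩

/-! ### node 4 -/

noncomputable def g4 (w : Fin 2 → ℂ) : Fin 2 → ℂ := ![(1 - w 1), 1 / (1 - w 0 * w 1)]
noncomputable def g4' (w : Fin 2 → ℂ) : Fin 2 → ℂ := ![-(1 - w 1) / (w 1 * (1 - w 0)), (1 - w 0)]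
noncomputable def m4 (w : Fin 2 → ℂ) : ℂ := ∏ j, (![(1 - cr 0 w), 1, (1 - cr 2 w), cr 3 w, 1] : Fin 5 → ℂ) j

theorem f4 {u v : ℂ} (hu : u ≠ 0) (hv : v ≠ 0) (hu1 : 1 - u ≠ 0) (hv1 : 1 - v ≠ 0)
    (huv : 1 - u * v ≠ 0) :
    1 - ((1 - v)) = v ∧
    1 - (1 / (1 - u * v)) = -(u * v) / (1 - u * v) ∧
    1 - ((1 - v)) * (1 / (1 - u * v)) = (v * (1 - u)) / (1 - u * v) := by
  have huv2 : 1 - v * u ≠ 0 := by rwa [mul_comm]
  refine ⟨?_, ?_, ?_⟩ <;> first | done | rfl | (field_simp; done) | (field_simp; ring1) | ring1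

theorem f4' {u v : ℂ} (hu : u ≠ 0) (hv : v ≠ 0) (hu1 : 1 - u ≠ 0) (hv1 : 1 - v ≠ 0)
    (huv : 1 - u * v ≠ 0) :
    1 - (-(1 - v) / (v * (1 - u))) = (1 - u * v) / (v * (1 - u)) ∧
    1 - ((1 - u)) = u ∧
    1 - (-(1 - v) / (v * (1 - u))) * ((1 - u)) = 1 / v := by
  have huv2 : 1 - v * u ≠ 0 := by rwa [mul_comm]
  refine ⟨?_, ?_, ?_⟩ <;> first | done | rfl | (field_simp; done) | (field_simp; ring1) | ring1

theorem a4_maps : MapsTo g4 V V := fun w hw => by
    obtain ⟨hu, hv, hu1, hv1, huv⟩ := V_ne hw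
    obtain ⟨h1, h2, h3⟩ := f4 hu hv hu1 hv1 huv
    refine mem_V hv1 (div_ne_zero one_ne_zero huv) ?_ ?_ ?_
    · rw [h1]; exact hv
    · rw [h2]; exact (div_ne_zero (neg_ne_zero.2 (mul_ne_zero hu hv)) huv)
    · rw [h3]; exact (div_ne_zero (mul_ne_zero hv hu1) huv)

theorem a4_maps' : MapsTo g4' V V := fun w hw => by
    obtain ⟨hu, hv, hu1, hv1, huv⟩ := V_ne hw
    obtain ⟨h1, h2, h3⟩ := f4' hu hv hu1 hv1 huv
    refine mem_V (div_ne_zero (neg_ne_zero.2 hv1) (mul_ne_zero hv hu1)) hu1 ?_ ?_ ?_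
    · rw [h1]; exact (div_ne_zero huv (mul_ne_zero hv hu1))
    · rw [h2]; exact hu
    · rw [h3]; exact (div_ne_zero one_ne_zero hv)

theorem a4_diff : DifferentiableOn ℂ g4 V := fun w hw => by
    obtain ⟨hu, hv, hu1, hv1, huv⟩ := V_ne hw
    refine (diff_pair (f := fun w => (1 - w 1)) (g := fun w => 1 / (1 - w 0 * w 1)) ?_ ?_).differentiableWithinAt
    · fun_prop (disch := assumption)
    · fun_prop (disch := assumption)

theorem a4_diff' : DifferentiableOn ℂ g4' V := fun w hw => by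
    obtain ⟨hu, hv, hu1, hv1, huv⟩ := V_ne hw
    refine (diff_pair (f := fun w => -(1 - w 1) / (w 1 * (1 - w 0))) (g := fun w => (1 - w 0)) ?_ ?_).differentiableWithinAt
    · have hd := (mul_ne_zero hv hu1)
      fun_prop (disch := assumption)
    · fun_prop (disch := assumption)

theorem a4_left : LeftInvOn g4' g4 V := fun w hw => by
    obtain ⟨hu, hv, hu1, hv1, huv⟩ := V_ne hw
    have huv2 : 1 - w 1 * w 0 ≠ 0 := by rwa [mul_comm]
    obtain ⟨a, ha⟩ : ∃ a : ℂ, a = (1 - w 1) := ⟨_, rfl⟩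
    obtain ⟨b, hb⟩ : ∃ b : ℂ, b = 1 / (1 - w 0 * w 1) := ⟨_, rfl⟩
    have hG : g4 w = ![a, b] := by rw [ha, hb]; rfl
    have h1 : 1 - a = w 1 := by subst ha; exact (f4 hu hv hu1 hv1 huv).1
    have h2 : 1 - b = -(w 0 * w 1) / (1 - w 0 * w 1) := by subst hb; exact (f4 hu hv hu1 hv1 huv).2.1
    have h3 : 1 - a * b = (w 1 * (1 - w 0)) / (1 - w 0 * w 1) := by subst ha hb; exact (f4 hu hv hu1 hv1 huv).2.2
    rw [hG]
    funext i
    fin_cases i
    · show -(1 - b) / (b * (1 - a)) = w 0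
      rw [h1, h2, hb]
      first | done | rfl | (field_simp; done) | (field_simp; ring1) | ring1
    · show (1 - a) = w 1
      rw [h1]
      first | done | rfl | (field_simp; done) | (field_simp; ring1) | ring1

theorem a4_right : LeftInvOn g4 g4' V := fun w hw => by
    obtain ⟨hu, hv, hu1, hv1, huv⟩ := V_ne hw
    have huv2 : 1 - w 1 * w 0 ≠ 0 := by rwa [mul_comm]
    obtain ⟨a, ha⟩ : ∃ a : ℂ, a = -(1 - w 1) / (w 1 * (1 - w 0)) := ⟨_, rfl⟩
    obtain ⟨b, hb⟩ : ∃ b : ℂ, b = (1 - w 0) := ⟨_, rfl⟩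
    have hG : g4' w = ![a, b] := by rw [ha, hb]; rfl
    have h1 : 1 - a = (1 - w 0 * w 1) / (w 1 * (1 - w 0)) := by subst ha; exact (f4' hu hv hu1 hv1 huv).1
    have h2 : 1 - b = w 0 := by subst hb; exact (f4' hu hv hu1 hv1 huv).2.1
    have h3 : 1 - a * b = 1 / w 1 := by subst ha hb; exact (f4' hu hv hu1 hv1 huv).2.2
    rw [hG]
    funext i
    fin_cases i
    · show (1 - b) = w 0
      rw [h2]
      first | done | rfl | (field_simp; done) | (field_simp; ring1) | ring1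
    · show 1 / (1 - a * b) = w 1
      rw [h3]
      first | done | rfl | (field_simp; done) | (field_simp; ring1) | ring1

theorem a4_mdiff : DifferentiableOn ℂ m4 V := fun w hw => by
    refine DifferentiableAt.differentiableWithinAt ?_
    show DifferentiableAt ℂ (fun w => ∏ j, (![(1 - cr 0 w), 1, (1 - cr 2 w), cr 3 w, 1] : Fin 5 → ℂ) j) w
    simp only [Fin.prod_univ_five]
    exact ((((((differentiableAt_const 1).fun_sub (cr_diff hw 0)).fun_mul (differentiableAt_const 1)).fun_mul ((differentiableAt_const 1).fun_sub (cr_diff hw 2))).fun_mul (cr_diff hw 3)).fun_mul (differentiableAt_const 1))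

theorem a4_mne : ∀ w ∈ V, m4 w ≠ 0 := fun w hw => by
    refine Finset.prod_ne_zero_iff.2 fun j _ => ?_
    fin_cases j
    · exact (cr_ne hw 0).2
    · exact one_ne_zero
    · exact (cr_ne hw 2).2
    · exact (cr_ne hw 3).1
    · exact one_ne_zero

theorem a4_wt : ∀ w ∈ V, Real.exp (phi (g4 w)) * ‖m4 w‖ ^ 2 = Real.exp (phi w) := fun w hw => by
    obtain ⟨hu, hv, hu1, hv1, huv⟩ := V_ne hw
    have huv2 : 1 - w 1 * w 0 ≠ 0 := by rwa [mul_comm]
    obtain ⟨e3, e4⟩ := one_sub_cr hw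
    obtain ⟨a, ha⟩ : ∃ a : ℂ, a = (1 - w 1) := ⟨_, rfl⟩
    obtain ⟨b, hb⟩ : ∃ b : ℂ, b = 1 / (1 - w 0 * w 1) := ⟨_, rfl⟩
    have hG : g4 w = ![a, b] := by rw [ha, hb]; rfl
    have h1 : 1 - a = w 1 := by subst ha; exact (f4 hu hv hu1 hv1 huv).1
    have h2 : 1 - b = -(w 0 * w 1) / (1 - w 0 * w 1) := by subst hb; exact (f4 hu hv hu1 hv1 huv).2.1
    have h3 : 1 - a * b = (w 1 * (1 - w 0)) / (1 - w 0 * w 1) := by subst ha hb; exact (f4 hu hv hu1 hv1 huv).2.2
    rw [exp_phi_Nc, exp_phi_Nc]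
    refine wt_prod ![4, 0, 1, 3, 2] (by decide) fun j => ?_
    rw [hG]
    fin_cases j
    · refine wt_div ?_
      show (1 - b) / (1 - a * b) * (1 - w 0) = -w 0
      rw [h2, h3]
      first | done | rfl | (field_simp; done) | (field_simp; ring1) | ring1
    · refine wt_sub ?_
      show a = (1 - w 1)
      rw [ha]
      first | done | rfl | (field_simp; done) | (field_simp; ring1) | ring1
    · refine wt_invsub ?_
      show b * (1 - w 0 * w 1) = 1
      rw [hb]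
      first | done | rfl | (field_simp; done) | (field_simp; ring1) | ring1
    · refine wt_inv ?_
      show (1 - a) / (1 - a * b) * ((1 - w 0) / (1 - w 0 * w 1)) = 1
      rw [h1, h3]
      first | done | rfl | (field_simp; done) | (field_simp; ring1) | ring1
    · refine wt_id ?_
      show a * b = ((1 - w 1) / (1 - w 0 * w 1))
      rw [ha, hb]
      first | done | rfl | (field_simp; done) | (field_simp; ring1) | ring1

theorem adm4 : Adm g4 g4' m4 :=
  ⟨a4_maps, a4_maps', a4_diff, a4_diff', a4_left, a4_right, a4_mdiff, a4_mne, a4_wt⟩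

/-! ### node 6 -/

noncomputable def g6 (w : Fin 2 → ℂ) : Fin 2 → ℂ := ![(1 - w 0) / (1 - w 0 * w 1), w 1]
noncomputable def g6' (w : Fin 2 → ℂ) : Fin 2 → ℂ := ![(1 - w 0) / (1 - w 0 * w 1), w 1]
noncomputable def m6 (w : Fin 2 → ℂ) : ℂ := ∏ j, (![1, 1, 1, 1, 1] : Fin 5 → ℂ) j

theorem f6 {u v : ℂ} (hu : u ≠ 0) (hv : v ≠ 0) (hu1 : 1 - u ≠ 0) (hv1 : 1 - v ≠ 0)
    (huv : 1 - u * v ≠ 0) :
    1 - ((1 - u) / (1 - u * v)) = (u * (1 - v)) / (1 - u * v) ∧
    1 - (v) = (1 - v) ∧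
    1 - ((1 - u) / (1 - u * v)) * (v) = (1 - v) / (1 - u * v) := by
  have huv2 : 1 - v * u ≠ 0 := by rwa [mul_comm]
  refine ⟨?_, ?_, ?_⟩ <;> first | done | rfl | (field_simp; done) | (field_simp; ring1) | ring1

theorem f6' {u v : ℂ} (hu : u ≠ 0) (hv : v ≠ 0) (hu1 : 1 - u ≠ 0) (hv1 : 1 - v ≠ 0)
    (huv : 1 - u * v ≠ 0) :
    1 - ((1 - u) / (1 - u * v)) = (u * (1 - v)) / (1 - u * v) ∧
    1 - (v) = (1 - v) ∧
    1 - ((1 - u) / (1 - u * v)) * (v) = (1 - v) / (1 - u * v) := by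
  have huv2 : 1 - v * u ≠ 0 := by rwa [mul_comm]
  refine ⟨?_, ?_, ?_⟩ <;> first | done | rfl | (field_simp; done) | (field_simp; ring1) | ring1

theorem a6_maps : MapsTo g6 V V := fun w hw => by
    obtain ⟨hu, hv, hu1, hv1, huv⟩ := V_ne hw
    obtain ⟨h1, h2, h3⟩ := f6 hu hv hu1 hv1 huv
    refine mem_V (div_ne_zero hu1 huv) hv ?_ ?_ ?_
    · rw [h1]; exact (div_ne_zero (mul_ne_zero hu hv1) huv)
    · rw [h2]; exact hv1
    · rw [h3]; exact (div_ne_zero hv1 huv)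

theorem a6_maps' : MapsTo g6' V V := fun w hw => by
    obtain ⟨hu, hv, hu1, hv1, huv⟩ := V_ne hw
    obtain ⟨h1, h2, h3⟩ := f6' hu hv hu1 hv1 huv
    refine mem_V (div_ne_zero hu1 huv) hv ?_ ?_ ?_
    · rw [h1]; exact (div_ne_zero (mul_ne_zero hu hv1) huv)
    · rw [h2]; exact hv1
    · rw [h3]; exact (div_ne_zero hv1 huv)

theorem a6_diff : DifferentiableOn ℂ g6 V := fun w hw => by
    obtain ⟨hu, hv, hu1, hv1, huv⟩ := V_ne hw
    refine (diff_pair (f := fun w => (1 - w 0) / (1 - w 0 * w 1)) (g := fun w => w 1) ?_ ?_).differentiableWithinAt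
    · fun_prop (disch := assumption)
    · fun_prop (disch := assumption)

theorem a6_diff' : DifferentiableOn ℂ g6' V := fun w hw => by
    obtain ⟨hu, hv, hu1, hv1, huv⟩ := V_ne hw
    refine (diff_pair (f := fun w => (1 - w 0) / (1 - w 0 * w 1)) (g := fun w => w 1) ?_ ?_).differentiableWithinAt
    · fun_prop (disch := assumption)
    · fun_prop (disch := assumption)

theorem a6_left : LeftInvOn g6' g6 V := fun w hw => by
    obtain ⟨hu, hv, hu1, hv1, huv⟩ := V_ne hw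
    have huv2 : 1 - w 1 * w 0 ≠ 0 := by rwa [mul_comm]
    obtain ⟨a, ha⟩ : ∃ a : ℂ, a = (1 - w 0) / (1 - w 0 * w 1) := ⟨_, rfl⟩
    obtain ⟨b, hb⟩ : ∃ b : ℂ, b = w 1 := ⟨_, rfl⟩
    have hG : g6 w = ![a, b] := by rw [ha, hb]; rfl
    have h1 : 1 - a = (w 0 * (1 - w 1)) / (1 - w 0 * w 1) := by subst ha; exact (f6 hu hv hu1 hv1 huv).1
    have h2 : 1 - b = (1 - w 1) := by subst hb; exact (f6 hu hv hu1 hv1 huv).2.1
    have h3 : 1 - a * b = (1 - w 1) / (1 - w 0 * w 1) := by subst ha hb; exact (f6 hu hv hu1 hv1 huv).2.2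
    rw [hG]
    funext i
    fin_cases i
    · show (1 - a) / (1 - a * b) = w 0
      rw [h1, h3]
      first | done | rfl | (field_simp; done) | (field_simp; ring1) | ring1
    · show b = w 1
      rw [hb]
      first | done | rfl | (field_simp; done) | (field_simp; ring1) | ring1

theorem a6_right : LeftInvOn g6 g6' V := fun w hw => by
    obtain ⟨hu, hv, hu1, hv1, huv⟩ := V_ne hw
    have huv2 : 1 - w 1 * w 0 ≠ 0 := by rwa [mul_comm]
    obtain ⟨a, ha⟩ : ∃ a : ℂ, a = (1 - w 0) / (1 - w 0 * w 1) := ⟨_, rfl⟩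
    obtain ⟨b, hb⟩ : ∃ b : ℂ, b = w 1 := ⟨_, rfl⟩
    have hG : g6' w = ![a, b] := by rw [ha, hb]; rfl
    have h1 : 1 - a = (w 0 * (1 - w 1)) / (1 - w 0 * w 1) := by subst ha; exact (f6' hu hv hu1 hv1 huv).1
    have h2 : 1 - b = (1 - w 1) := by subst hb; exact (f6' hu hv hu1 hv1 huv).2.1
    have h3 : 1 - a * b = (1 - w 1) / (1 - w 0 * w 1) := by subst ha hb; exact (f6' hu hv hu1 hv1 huv).2.2
    rw [hG]
    funext i
    fin_cases i
    · show (1 - a) / (1 - a * b) = w 0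
      rw [h1, h3]
      first | done | rfl | (field_simp; done) | (field_simp; ring1) | ring1
    · show b = w 1
      rw [hb]
      first | done | rfl | (field_simp; done) | (field_simp; ring1) | ring1

theorem a6_mdiff : DifferentiableOn ℂ m6 V := fun w hw => by
    refine DifferentiableAt.differentiableWithinAt ?_
    show DifferentiableAt ℂ (fun w => ∏ j, (![1, 1, 1, 1, 1] : Fin 5 → ℂ) j) w
    simp only [Fin.prod_univ_five]
    exact (((((differentiableAt_const 1).fun_mul (differentiableAt_const 1)).fun_mul (differentiableAt_const 1)).fun_mul (differentiableAt_const 1)).fun_mul (differentiableAt_const 1))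

theorem a6_mne : ∀ w ∈ V, m6 w ≠ 0 := fun w hw => by
    refine Finset.prod_ne_zero_iff.2 fun j _ => ?_
    fin_cases j
    · exact one_ne_zero
    · exact one_ne_zero
    · exact one_ne_zero
    · exact one_ne_zero
    · exact one_ne_zero

theorem a6_wt : ∀ w ∈ V, Real.exp (phi (g6 w)) * ‖m6 w‖ ^ 2 = Real.exp (phi w) := fun w hw => by
    obtain ⟨hu, hv, hu1, hv1, huv⟩ := V_ne hw
    have huv2 : 1 - w 1 * w 0 ≠ 0 := by rwa [mul_comm]
    obtain ⟨e3, e4⟩ := one_sub_cr hw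
    obtain ⟨a, ha⟩ : ∃ a : ℂ, a = (1 - w 0) / (1 - w 0 * w 1) := ⟨_, rfl⟩
    obtain ⟨b, hb⟩ : ∃ b : ℂ, b = w 1 := ⟨_, rfl⟩
    have hG : g6 w = ![a, b] := by rw [ha, hb]; rfl
    have h1 : 1 - a = (w 0 * (1 - w 1)) / (1 - w 0 * w 1) := by subst ha; exact (f6 hu hv hu1 hv1 huv).1
    have h2 : 1 - b = (1 - w 1) := by subst hb; exact (f6 hu hv hu1 hv1 huv).2.1
    have h3 : 1 - a * b = (1 - w 1) / (1 - w 0 * w 1) := by subst ha hb; exact (f6 hu hv hu1 hv1 huv).2.2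
    rw [exp_phi_Nc, exp_phi_Nc]
    refine wt_prod ![3, 1, 4, 0, 2] (by decide) fun j => ?_
    rw [hG]
    fin_cases j
    · refine wt_id ?_
      show (1 - a) / (1 - a * b) = w 0
      rw [h1, h3]
      first | done | rfl | (field_simp; done) | (field_simp; ring1) | ring1
    · refine wt_id ?_
      show b = w 1
      rw [hb]
      first | done | rfl | (field_simp; done) | (field_simp; ring1) | ring1
    · refine wt_sub ?_
      show (1 - b) / (1 - a * b) = (1 - w 0 * w 1)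
      rw [h2, h3]
      first | done | rfl | (field_simp; done) | (field_simp; ring1) | ring1
    · refine wt_id ?_
      show a = ((1 - w 0) / (1 - w 0 * w 1))
      rw [ha]
      first | done | rfl | (field_simp; done) | (field_simp; ring1) | ring1
    · refine wt_sub ?_
      show a * b = (1 - (1 - w 1) / (1 - w 0 * w 1))
      rw [cr_four] at e4
      rw [ha, hb, e4]
      first | done | rfl | (field_simp; done) | (field_simp; ring1) | ring1

theorem adm6 : Adm g6 g6' m6 :=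
  ⟨a6_maps, a6_maps', a6_diff, a6_diff', a6_left, a6_right, a6_mdiff, a6_mne, a6_wt⟩

/-! ### node 7 -/

noncomputable def g7 (w : Fin 2 → ℂ) : Fin 2 → ℂ := ![(1 - w 0 * w 1), (1 - w 1) / (1 - w 0 * w 1)]
noncomputable def g7' (w : Fin 2 → ℂ) : Fin 2 → ℂ := ![(1 - w 0) / (1 - w 0 * w 1), (1 - w 0 * w 1)]
noncomputable def m7 (w : Fin 2 → ℂ) : ℂ := ∏ j, (![1, 1, 1, 1, 1] : Fin 5 → ℂ) j

theorem f7 {u v : ℂ} (hu : u ≠ 0) (hv : v ≠ 0) (hu1 : 1 - u ≠ 0) (hv1 : 1 - v ≠ 0)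
    (huv : 1 - u * v ≠ 0) :
    1 - ((1 - u * v)) = u * v ∧
    1 - ((1 - v) / (1 - u * v)) = (v * (1 - u)) / (1 - u * v) ∧
    1 - ((1 - u * v)) * ((1 - v) / (1 - u * v)) = v := by
  have huv2 : 1 - v * u ≠ 0 := by rwa [mul_comm]
  refine ⟨?_, ?_, ?_⟩ <;> first | done | rfl | (field_simp; done) | (field_simp; ring1) | ring1

theorem f7' {u v : ℂ} (hu : u ≠ 0) (hv : v ≠ 0) (hu1 : 1 - u ≠ 0) (hv1 : 1 - v ≠ 0)
    (huv : 1 - u * v ≠ 0) :
    1 - ((1 - u) / (1 - u * v)) = (u * (1 - v)) / (1 - u * v) ∧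
    1 - ((1 - u * v)) = u * v ∧
    1 - ((1 - u) / (1 - u * v)) * ((1 - u * v)) = u := by
  have huv2 : 1 - v * u ≠ 0 := by rwa [mul_comm]
  refine ⟨?_, ?_, ?_⟩ <;> first | done | rfl | (field_simp; done) | (field_simp; ring1) | ring1

theorem a7_maps : MapsTo g7 V V := fun w hw => by
    obtain ⟨hu, hv, hu1, hv1, huv⟩ := V_ne hw
    obtain ⟨h1, h2, h3⟩ := f7 hu hv hu1 hv1 huv
    refine mem_V huv (div_ne_zero hv1 huv) ?_ ?_ ?_
    · rw [h1]; exact (mul_ne_zero hu hv)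
    · rw [h2]; exact (div_ne_zero (mul_ne_zero hv hu1) huv)
    · rw [h3]; exact hv

theorem a7_maps' : MapsTo g7' V V := fun w hw => by
    obtain ⟨hu, hv, hu1, hv1, huv⟩ := V_ne hw
    obtain ⟨h1, h2, h3⟩ := f7' hu hv hu1 hv1 huv
    refine mem_V (div_ne_zero hu1 huv) huv ?_ ?_ ?_
    · rw [h1]; exact (div_ne_zero (mul_ne_zero hu hv1) huv)
    · rw [h2]; exact (mul_ne_zero hu hv)
    · rw [h3]; exact hu

theorem a7_diff : DifferentiableOn ℂ g7 V := fun w hw => by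
    obtain ⟨hu, hv, hu1, hv1, huv⟩ := V_ne hw
    refine (diff_pair (f := fun w => (1 - w 0 * w 1)) (g := fun w => (1 - w 1) / (1 - w 0 * w 1)) ?_ ?_).differentiableWithinAt
    · fun_prop (disch := assumption)
    · fun_prop (disch := assumption)

theorem a7_diff' : DifferentiableOn ℂ g7' V := fun w hw => by
    obtain ⟨hu, hv, hu1, hv1, huv⟩ := V_ne hw
    refine (diff_pair (f := fun w => (1 - w 0) / (1 - w 0 * w 1)) (g := fun w => (1 - w 0 * w 1)) ?_ ?_).differentiableWithinAt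
    · fun_prop (disch := assumption)
    · fun_prop (disch := assumption)

theorem a7_left : LeftInvOn g7' g7 V := fun w hw => by
    obtain ⟨hu, hv, hu1, hv1, huv⟩ := V_ne hw
    have huv2 : 1 - w 1 * w 0 ≠ 0 := by rwa [mul_comm]
    obtain ⟨a, ha⟩ : ∃ a : ℂ, a = (1 - w 0 * w 1) := ⟨_, rfl⟩
    obtain ⟨b, hb⟩ : ∃ b : ℂ, b = (1 - w 1) / (1 - w 0 * w 1) := ⟨_, rfl⟩
    have hG : g7 w = ![a, b] := by rw [ha, hb]; rfl
    have h1 : 1 - a = w 0 * w 1 := by subst ha; exact (f7 hu hv hu1 hv1 huv).1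
    have h2 : 1 - b = (w 1 * (1 - w 0)) / (1 - w 0 * w 1) := by subst hb; exact (f7 hu hv hu1 hv1 huv).2.1
    have h3 : 1 - a * b = w 1 := by subst ha hb; exact (f7 hu hv hu1 hv1 huv).2.2
    rw [hG]
    funext i
    fin_cases i
    · show (1 - a) / (1 - a * b) = w 0
      rw [h1, h3]
      first | done | rfl | (field_simp; done) | (field_simp; ring1) | ring1
    · show (1 - a * b) = w 1
      rw [h3]
      first | done | rfl | (field_simp; done) | (field_simp; ring1) | ring1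

theorem a7_right : LeftInvOn g7 g7' V := fun w hw => by
    obtain ⟨hu, hv, hu1, hv1, huv⟩ := V_ne hw
    have huv2 : 1 - w 1 * w 0 ≠ 0 := by rwa [mul_comm]
    obtain ⟨a, ha⟩ : ∃ a : ℂ, a = (1 - w 0) / (1 - w 0 * w 1) := ⟨_, rfl⟩
    obtain ⟨b, hb⟩ : ∃ b : ℂ, b = (1 - w 0 * w 1) := ⟨_, rfl⟩
    have hG : g7' w = ![a, b] := by rw [ha, hb]; rfl
    have h1 : 1 - a = (w 0 * (1 - w 1)) / (1 - w 0 * w 1) := by subst ha; exact (f7' hu hv hu1 hv1 huv).1
    have h2 : 1 - b = w 0 * w 1 := by subst hb; exact (f7' hu hv hu1 hv1 huv).2.1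
    have h3 : 1 - a * b = w 0 := by subst ha hb; exact (f7' hu hv hu1 hv1 huv).2.2
    rw [hG]
    funext i
    fin_cases i
    · show (1 - a * b) = w 0
      rw [h3]
      first | done | rfl | (field_simp; done) | (field_simp; ring1) | ring1
    · show (1 - b) / (1 - a * b) = w 1
      rw [h2, h3]
      first | done | rfl | (field_simp; done) | (field_simp; ring1) | ring1

theorem a7_mdiff : DifferentiableOn ℂ m7 V := fun w hw => by
    refine DifferentiableAt.differentiableWithinAt ?_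
    show DifferentiableAt ℂ (fun w => ∏ j, (![1, 1, 1, 1, 1] : Fin 5 → ℂ) j) w
    simp only [Fin.prod_univ_five]
    exact (((((differentiableAt_const 1).fun_mul (differentiableAt_const 1)).fun_mul (differentiableAt_const 1)).fun_mul (differentiableAt_const 1)).fun_mul (differentiableAt_const 1))

theorem a7_mne : ∀ w ∈ V, m7 w ≠ 0 := fun w hw => by
    refine Finset.prod_ne_zero_iff.2 fun j _ => ?_
    fin_cases j
    · exact one_ne_zero
    · exact one_ne_zero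
    · exact one_ne_zero
    · exact one_ne_zero
    · exact one_ne_zero

theorem a7_wt : ∀ w ∈ V, Real.exp (phi (g7 w)) * ‖m7 w‖ ^ 2 = Real.exp (phi w) := fun w hw => by
    obtain ⟨hu, hv, hu1, hv1, huv⟩ := V_ne hw
    have huv2 : 1 - w 1 * w 0 ≠ 0 := by rwa [mul_comm]
    obtain ⟨e3, e4⟩ := one_sub_cr hw
    obtain ⟨a, ha⟩ : ∃ a : ℂ, a = (1 - w 0 * w 1) := ⟨_, rfl⟩
    obtain ⟨b, hb⟩ : ∃ b : ℂ, b = (1 - w 1) / (1 - w 0 * w 1) := ⟨_, rfl⟩
    have hG : g7 w = ![a, b] := by rw [ha, hb]; rfl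
    have h1 : 1 - a = w 0 * w 1 := by subst ha; exact (f7 hu hv hu1 hv1 huv).1
    have h2 : 1 - b = (w 1 * (1 - w 0)) / (1 - w 0 * w 1) := by subst hb; exact (f7 hu hv hu1 hv1 huv).2.1
    have h3 : 1 - a * b = w 1 := by subst ha hb; exact (f7 hu hv hu1 hv1 huv).2.2
    rw [exp_phi_Nc, exp_phi_Nc]
    refine wt_prod ![3, 2, 0, 4, 1] (by decide) fun j => ?_
    rw [hG]
    fin_cases j
    · refine wt_id ?_
      show (1 - a) / (1 - a * b) = w 0
      rw [h1, h3]
      first | done | rfl | (field_simp; done) | (field_simp; ring1) | ring1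
    · refine wt_sub ?_
      show a * b = (1 - w 1)
      rw [ha, hb]
      first | done | rfl | (field_simp; done) | (field_simp; ring1) | ring1
    · refine wt_sub ?_
      show a = (1 - w 0 * w 1)
      rw [ha]
      first | done | rfl | (field_simp; done) | (field_simp; ring1) | ring1
    · refine wt_id ?_
      show (1 - b) / (1 - a * b) = ((1 - w 0) / (1 - w 0 * w 1))
      rw [h2, h3]
      first | done | rfl | (field_simp; done) | (field_simp; ring1) | ring1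
    · refine wt_id ?_
      show b = ((1 - w 1) / (1 - w 0 * w 1))
      rw [hb]
      first | done | rfl | (field_simp; done) | (field_simp; ring1) | ring1

theorem adm7 : Adm g7 g7' m7 :=
  ⟨a7_maps, a7_maps', a7_diff, a7_diff', a7_left, a7_right, a7_mdiff, a7_mne, a7_wt⟩

/-! ### node 8 -/

noncomputable def g8 (w : Fin 2 → ℂ) : Fin 2 → ℂ := ![1 / w 0, (w 0 * (1 - w 1)) / (1 - w 0 * w 1)]
noncomputable def g8' (w : Fin 2 → ℂ) : Fin 2 → ℂ := ![1 / w 0, (1 - w 0 * w 1) / (1 - w 1)]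
noncomputable def m8 (w : Fin 2 → ℂ) : ℂ := ∏ j, (![cr 0 w, cr 1 w, cr 2 w, 1, 1] : Fin 5 → ℂ) j

theorem f8 {u v : ℂ} (hu : u ≠ 0) (hv : v ≠ 0) (hu1 : 1 - u ≠ 0) (hv1 : 1 - v ≠ 0)
    (huv : 1 - u * v ≠ 0) :
    1 - (1 / u) = -(1 - u) / u ∧
    1 - ((u * (1 - v)) / (1 - u * v)) = (1 - u) / (1 - u * v) ∧
    1 - (1 / u) * ((u * (1 - v)) / (1 - u * v)) = (v * (1 - u)) / (1 - u * v) := by
  have huv2 : 1 - v * u ≠ 0 := by rwa [mul_comm]
  refine ⟨?_, ?_, ?_⟩ <;> first | done | rfl | (field_simp; done) | (field_simp; ring1) | ring1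

theorem f8' {u v : ℂ} (hu : u ≠ 0) (hv : v ≠ 0) (hu1 : 1 - u ≠ 0) (hv1 : 1 - v ≠ 0)
    (huv : 1 - u * v ≠ 0) :
    1 - (1 / u) = -(1 - u) / u ∧
    1 - ((1 - u * v) / (1 - v)) = -(v * (1 - u)) / (1 - v) ∧
    1 - (1 / u) * ((1 - u * v) / (1 - v)) = -(1 - u) / (u * (1 - v)) := by
  have huv2 : 1 - v * u ≠ 0 := by rwa [mul_comm]
  refine ⟨?_, ?_, ?_⟩ <;> first | done | rfl | (field_simp; done) | (field_simp; ring1) | ring1

theorem a8_maps : MapsTo g8 V V := fun w hw => by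
    obtain ⟨hu, hv, hu1, hv1, huv⟩ := V_ne hw
    obtain ⟨h1, h2, h3⟩ := f8 hu hv hu1 hv1 huv
    refine mem_V (div_ne_zero one_ne_zero hu) (div_ne_zero (mul_ne_zero hu hv1) huv) ?_ ?_ ?_
    · rw [h1]; exact (div_ne_zero (neg_ne_zero.2 hu1) hu)
    · rw [h2]; exact (div_ne_zero hu1 huv)
    · rw [h3]; exact (div_ne_zero (mul_ne_zero hv hu1) huv)

theorem a8_maps' : MapsTo g8' V V := fun w hw => by
    obtain ⟨hu, hv, hu1, hv1, huv⟩ := V_ne hw
    obtain ⟨h1, h2, h3⟩ := f8' hu hv hu1 hv1 huv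
    refine mem_V (div_ne_zero one_ne_zero hu) (div_ne_zero huv hv1) ?_ ?_ ?_
    · rw [h1]; exact (div_ne_zero (neg_ne_zero.2 hu1) hu)
    · rw [h2]; exact (div_ne_zero (neg_ne_zero.2 (mul_ne_zero hv hu1)) hv1)
    · rw [h3]; exact (div_ne_zero (neg_ne_zero.2 hu1) (mul_ne_zero hu hv1))

theorem a8_diff : DifferentiableOn ℂ g8 V := fun w hw => by
    obtain ⟨hu, hv, hu1, hv1, huv⟩ := V_ne hw
    refine (diff_pair (f := fun w => 1 / w 0) (g := fun w => (w 0 * (1 - w 1)) / (1 - w 0 * w 1)) ?_ ?_).differentiableWithinAt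
    · fun_prop (disch := assumption)
    · fun_prop (disch := assumption)

theorem a8_diff' : DifferentiableOn ℂ g8' V := fun w hw => by
    obtain ⟨hu, hv, hu1, hv1, huv⟩ := V_ne hw
    refine (diff_pair (f := fun w => 1 / w 0) (g := fun w => (1 - w 0 * w 1) / (1 - w 1)) ?_ ?_).differentiableWithinAt
    · fun_prop (disch := assumption)
    · fun_prop (disch := assumption)

theorem a8_left : LeftInvOn g8' g8 V := fun w hw => by
    obtain ⟨hu, hv, hu1, hv1, huv⟩ := V_ne hw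
    have huv2 : 1 - w 1 * w 0 ≠ 0 := by rwa [mul_comm]
    obtain ⟨a, ha⟩ : ∃ a : ℂ, a = 1 / w 0 := ⟨_, rfl⟩
    obtain ⟨b, hb⟩ : ∃ b : ℂ, b = (w 0 * (1 - w 1)) / (1 - w 0 * w 1) := ⟨_, rfl⟩
    have hG : g8 w = ![a, b] := by rw [ha, hb]; rfl
    have h1 : 1 - a = -(1 - w 0) / w 0 := by subst ha; exact (f8 hu hv hu1 hv1 huv).1
    have h2 : 1 - b = (1 - w 0) / (1 - w 0 * w 1) := by subst hb; exact (f8 hu hv hu1 hv1 huv).2.1
    have h3 : 1 - a * b = (w 1 * (1 - w 0)) / (1 - w 0 * w 1) := by subst ha hb; exact (f8 hu hv hu1 hv1 huv).2.2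
    rw [hG]
    funext i
    fin_cases i
    · show 1 / a = w 0
      rw [ha]
      first | done | rfl | (field_simp; done) | (field_simp; ring1) | ring1
    · show (1 - a * b) / (1 - b) = w 1
      rw [h2, h3]
      first | done | rfl | (field_simp; done) | (field_simp; ring1) | ring1

theorem a8_right : LeftInvOn g8 g8' V := fun w hw => by
    obtain ⟨hu, hv, hu1, hv1, huv⟩ := V_ne hw
    have huv2 : 1 - w 1 * w 0 ≠ 0 := by rwa [mul_comm]
    obtain ⟨a, ha⟩ : ∃ a : ℂ, a = 1 / w 0 := ⟨_, rfl⟩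
    obtain ⟨b, hb⟩ : ∃ b : ℂ, b = (1 - w 0 * w 1) / (1 - w 1) := ⟨_, rfl⟩
    have hG : g8' w = ![a, b] := by rw [ha, hb]; rfl
    have h1 : 1 - a = -(1 - w 0) / w 0 := by subst ha; exact (f8' hu hv hu1 hv1 huv).1
    have h2 : 1 - b = -(w 1 * (1 - w 0)) / (1 - w 1) := by subst hb; exact (f8' hu hv hu1 hv1 huv).2.1
    have h3 : 1 - a * b = -(1 - w 0) / (w 0 * (1 - w 1)) := by subst ha hb; exact (f8' hu hv hu1 hv1 huv).2.2
    rw [hG]
    funext i
    fin_cases i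
    · show 1 / a = w 0
      rw [ha]
      first | done | rfl | (field_simp; done) | (field_simp; ring1) | ring1
    · show (a * (1 - b)) / (1 - a * b) = w 1
      rw [h2, h3, ha]
      first | done | rfl | (field_simp; done) | (field_simp; ring1) | ring1

theorem a8_mdiff : DifferentiableOn ℂ m8 V := fun w hw => by
    refine DifferentiableAt.differentiableWithinAt ?_
    show DifferentiableAt ℂ (fun w => ∏ j, (![cr 0 w, cr 1 w, cr 2 w, 1, 1] : Fin 5 → ℂ) j) w
    simp only [Fin.prod_univ_five]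
    exact (((((cr_diff hw 0).fun_mul (cr_diff hw 1)).fun_mul (cr_diff hw 2)).fun_mul (differentiableAt_const 1)).fun_mul (differentiableAt_const 1))

theorem a8_mne : ∀ w ∈ V, m8 w ≠ 0 := fun w hw => by
    refine Finset.prod_ne_zero_iff.2 fun j _ => ?_
    fin_cases j
    · exact (cr_ne hw 0).1
    · exact (cr_ne hw 1).1
    · exact (cr_ne hw 2).1
    · exact one_ne_zero
    · exact one_ne_zero

theorem a8_wt : ∀ w ∈ V, Real.exp (phi (g8 w)) * ‖m8 w‖ ^ 2 = Real.exp (phi w) := fun w hw => by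
    obtain ⟨hu, hv, hu1, hv1, huv⟩ := V_ne hw
    have huv2 : 1 - w 1 * w 0 ≠ 0 := by rwa [mul_comm]
    obtain ⟨e3, e4⟩ := one_sub_cr hw
    obtain ⟨a, ha⟩ : ∃ a : ℂ, a = 1 / w 0 := ⟨_, rfl⟩
    obtain ⟨b, hb⟩ : ∃ b : ℂ, b = (w 0 * (1 - w 1)) / (1 - w 0 * w 1) := ⟨_, rfl⟩
    have hG : g8 w = ![a, b] := by rw [ha, hb]; rfl
    have h1 : 1 - a = -(1 - w 0) / w 0 := by subst ha; exact (f8 hu hv hu1 hv1 huv).1
    have h2 : 1 - b = (1 - w 0) / (1 - w 0 * w 1) := by subst hb; exact (f8 hu hv hu1 hv1 huv).2.1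
    have h3 : 1 - a * b = (w 1 * (1 - w 0)) / (1 - w 0 * w 1) := by subst ha hb; exact (f8 hu hv hu1 hv1 huv).2.2
    rw [exp_phi_Nc, exp_phi_Nc]
    refine wt_prod ![0, 4, 3, 1, 2] (by decide) fun j => ?_
    rw [hG]
    fin_cases j
    · refine wt_inv ?_
      show a * w 0 = 1
      rw [ha]
      first | done | rfl | (field_simp; done) | (field_simp; ring1) | ring1
    · refine wt_inv ?_
      show (1 - b) / (1 - a * b) * w 1 = 1
      rw [h2, h3]
      first | done | rfl | (field_simp; done) | (field_simp; ring1) | ring1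
    · refine wt_subdiv ?_
      show (1 - a) / (1 - a * b) * (w 0 * w 1) = -(1 - w 0 * w 1)
      rw [h1, h3]
      first | done | rfl | (field_simp; done) | (field_simp; ring1) | ring1
    · refine wt_sub ?_
      show b = (1 - (1 - w 0) / (1 - w 0 * w 1))
      rw [cr_three] at e3
      rw [hb, e3]
      first | done | rfl | (field_simp; done) | (field_simp; ring1) | ring1
    · refine wt_id ?_
      show a * b = ((1 - w 1) / (1 - w 0 * w 1))
      rw [ha, hb]
      first | done | rfl | (field_simp; done) | (field_simp; ring1) | ring1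

theorem adm8 : Adm g8 g8' m8 :=
  ⟨a8_maps, a8_maps', a8_diff, a8_diff', a8_left, a8_right, a8_mdiff, a8_mne, a8_wt⟩

/-! ### node 9 -/

noncomputable def g9 (w : Fin 2 → ℂ) : Fin 2 → ℂ := ![1 / w 0, w 0 * w 1]
noncomputable def g9' (w : Fin 2 → ℂ) : Fin 2 → ℂ := ![1 / w 0, w 0 * w 1]
noncomputable def m9 (w : Fin 2 → ℂ) : ℂ := ∏ j, (![cr 0 w, 1, 1, (1 - cr 3 w), cr 4 w] : Fin 5 → ℂ) j

theorem f9 {u v : ℂ} (hu : u ≠ 0) (hv : v ≠ 0) (hu1 : 1 - u ≠ 0) (hv1 : 1 - v ≠ 0)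
    (huv : 1 - u * v ≠ 0) :
    1 - (1 / u) = -(1 - u) / u ∧
    1 - (u * v) = (1 - u * v) ∧
    1 - (1 / u) * (u * v) = (1 - v) := by
  have huv2 : 1 - v * u ≠ 0 := by rwa [mul_comm]
  refine ⟨?_, ?_, ?_⟩ <;> first | done | rfl | (field_simp; done) | (field_simp; ring1) | ring1

theorem f9' {u v : ℂ} (hu : u ≠ 0) (hv : v ≠ 0) (hu1 : 1 - u ≠ 0) (hv1 : 1 - v ≠ 0)
    (huv : 1 - u * v ≠ 0) :
    1 - (1 / u) = -(1 - u) / u ∧
    1 - (u * v) = (1 - u * v) ∧
    1 - (1 / u) * (u * v) = (1 - v) := by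
  have huv2 : 1 - v * u ≠ 0 := by rwa [mul_comm]
  refine ⟨?_, ?_, ?_⟩ <;> first | done | rfl | (field_simp; done) | (field_simp; ring1) | ring1

theorem a9_maps : MapsTo g9 V V := fun w hw => by
    obtain ⟨hu, hv, hu1, hv1, huv⟩ := V_ne hw
    obtain ⟨h1, h2, h3⟩ := f9 hu hv hu1 hv1 huv
    refine mem_V (div_ne_zero one_ne_zero hu) (mul_ne_zero hu hv) ?_ ?_ ?_
    · rw [h1]; exact (div_ne_zero (neg_ne_zero.2 hu1) hu)
    · rw [h2]; exact huv
    · rw [h3]; exact hv1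

theorem a9_maps' : MapsTo g9' V V := fun w hw => by
    obtain ⟨hu, hv, hu1, hv1, huv⟩ := V_ne hw
    obtain ⟨h1, h2, h3⟩ := f9' hu hv hu1 hv1 huv
    refine mem_V (div_ne_zero one_ne_zero hu) (mul_ne_zero hu hv) ?_ ?_ ?_
    · rw [h1]; exact (div_ne_zero (neg_ne_zero.2 hu1) hu)
    · rw [h2]; exact huv
    · rw [h3]; exact hv1

theorem a9_diff : DifferentiableOn ℂ g9 V := fun w hw => by
    obtain ⟨hu, hv, hu1, hv1, huv⟩ := V_ne hw
    refine (diff_pair (f := fun w => 1 / w 0) (g := fun w => w 0 * w 1) ?_ ?_).differentiableWithinAt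
    · fun_prop (disch := assumption)
    · fun_prop (disch := assumption)

theorem a9_diff' : DifferentiableOn ℂ g9' V := fun w hw => by
    obtain ⟨hu, hv, hu1, hv1, huv⟩ := V_ne hw
    refine (diff_pair (f := fun w => 1 / w 0) (g := fun w => w 0 * w 1) ?_ ?_).differentiableWithinAt
    · fun_prop (disch := assumption)
    · fun_prop (disch := assumption)

theorem a9_left : LeftInvOn g9' g9 V := fun w hw => by
    obtain ⟨hu, hv, hu1, hv1, huv⟩ := V_ne hw
    have huv2 : 1 - w 1 * w 0 ≠ 0 := by rwa [mul_comm]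
    obtain ⟨a, ha⟩ : ∃ a : ℂ, a = 1 / w 0 := ⟨_, rfl⟩
    obtain ⟨b, hb⟩ : ∃ b : ℂ, b = w 0 * w 1 := ⟨_, rfl⟩
    have hG : g9 w = ![a, b] := by rw [ha, hb]; rfl
    have h1 : 1 - a = -(1 - w 0) / w 0 := by subst ha; exact (f9 hu hv hu1 hv1 huv).1
    have h2 : 1 - b = (1 - w 0 * w 1) := by subst hb; exact (f9 hu hv hu1 hv1 huv).2.1
    have h3 : 1 - a * b = (1 - w 1) := by subst ha hb; exact (f9 hu hv hu1 hv1 huv).2.2
    rw [hG]
    funext i
    fin_cases i
    · show 1 / a = w 0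
      rw [ha]
      first | done | rfl | (field_simp; done) | (field_simp; ring1) | ring1
    · show a * b = w 1
      rw [ha, hb]
      first | done | rfl | (field_simp; done) | (field_simp; ring1) | ring1

theorem a9_right : LeftInvOn g9 g9' V := fun w hw => by
    obtain ⟨hu, hv, hu1, hv1, huv⟩ := V_ne hw
    have huv2 : 1 - w 1 * w 0 ≠ 0 := by rwa [mul_comm]
    obtain ⟨a, ha⟩ : ∃ a : ℂ, a = 1 / w 0 := ⟨_, rfl⟩
    obtain ⟨b, hb⟩ : ∃ b : ℂ, b = w 0 * w 1 := ⟨_, rfl⟩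
    have hG : g9' w = ![a, b] := by rw [ha, hb]; rfl
    have h1 : 1 - a = -(1 - w 0) / w 0 := by subst ha; exact (f9' hu hv hu1 hv1 huv).1
    have h2 : 1 - b = (1 - w 0 * w 1) := by subst hb; exact (f9' hu hv hu1 hv1 huv).2.1
    have h3 : 1 - a * b = (1 - w 1) := by subst ha hb; exact (f9' hu hv hu1 hv1 huv).2.2
    rw [hG]
    funext i
    fin_cases i
    · show 1 / a = w 0
      rw [ha]
      first | done | rfl | (field_simp; done) | (field_simp; ring1) | ring1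
    · show a * b = w 1
      rw [ha, hb]
      first | done | rfl | (field_simp; done) | (field_simp; ring1) | ring1

theorem a9_mdiff : DifferentiableOn ℂ m9 V := fun w hw => by
    refine DifferentiableAt.differentiableWithinAt ?_
    show DifferentiableAt ℂ (fun w => ∏ j, (![cr 0 w, 1, 1, (1 - cr 3 w), cr 4 w] : Fin 5 → ℂ) j) w
    simp only [Fin.prod_univ_five]
    exact (((((cr_diff hw 0).fun_mul (differentiableAt_const 1)).fun_mul (differentiableAt_const 1)).fun_mul ((differentiableAt_const 1).fun_sub (cr_diff hw 3))).fun_mul (cr_diff hw 4))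

theorem a9_mne : ∀ w ∈ V, m9 w ≠ 0 := fun w hw => by
    refine Finset.prod_ne_zero_iff.2 fun j _ => ?_
    fin_cases j
    · exact (cr_ne hw 0).1
    · exact one_ne_zero
    · exact one_ne_zero
    · exact (cr_ne hw 3).2
    · exact (cr_ne hw 4).1

theorem a9_wt : ∀ w ∈ V, Real.exp (phi (g9 w)) * ‖m9 w‖ ^ 2 = Real.exp (phi w) := fun w hw => by
    obtain ⟨hu, hv, hu1, hv1, huv⟩ := V_ne hw
    have huv2 : 1 - w 1 * w 0 ≠ 0 := by rwa [mul_comm]
    obtain ⟨e3, e4⟩ := one_sub_cr hw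
    obtain ⟨a, ha⟩ : ∃ a : ℂ, a = 1 / w 0 := ⟨_, rfl⟩
    obtain ⟨b, hb⟩ : ∃ b : ℂ, b = w 0 * w 1 := ⟨_, rfl⟩
    have hG : g9 w = ![a, b] := by rw [ha, hb]; rfl
    have h1 : 1 - a = -(1 - w 0) / w 0 := by subst ha; exact (f9 hu hv hu1 hv1 huv).1
    have h2 : 1 - b = (1 - w 0 * w 1) := by subst hb; exact (f9 hu hv hu1 hv1 huv).2.1
    have h3 : 1 - a * b = (1 - w 1) := by subst ha hb; exact (f9 hu hv hu1 hv1 huv).2.2
    rw [exp_phi_Nc, exp_phi_Nc]
    refine wt_prod ![0, 2, 1, 3, 4] (by decide) fun j => ?_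
    rw [hG]
    fin_cases j
    · refine wt_inv ?_
      show a * w 0 = 1
      rw [ha]
      first | done | rfl | (field_simp; done) | (field_simp; ring1) | ring1
    · refine wt_id ?_
      show a * b = w 1
      rw [ha, hb]
      first | done | rfl | (field_simp; done) | (field_simp; ring1) | ring1
    · refine wt_id ?_
      show b = (w 0 * w 1)
      rw [hb]
      first | done | rfl | (field_simp; done) | (field_simp; ring1) | ring1
    · refine wt_div ?_
      show (1 - a) / (1 - a * b) * (1 - (1 - w 0) / (1 - w 0 * w 1)) = -((1 - w 0) / (1 - w 0 * w 1))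
      rw [cr_three] at e3
      rw [h1, h3, e3]
      first | done | rfl | (field_simp; done) | (field_simp; ring1) | ring1
    · refine wt_inv ?_
      show (1 - b) / (1 - a * b) * ((1 - w 1) / (1 - w 0 * w 1)) = 1
      rw [h2, h3]
      first | done | rfl | (field_simp; done) | (field_simp; ring1) | ring1

theorem adm9 : Adm g9 g9' m9 :=
  ⟨a9_maps, a9_maps', a9_diff, a9_diff', a9_left, a9_right, a9_mdiff, a9_mne, a9_wt⟩

/-! ### node 10 -/

noncomputable def g10 (w : Fin 2 → ℂ) : Fin 2 → ℂ := ![(1 - w 0) / (1 - w 0 * w 1), (1 - w 0 * w 1) / (w 1 * (1 - w 0))]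
noncomputable def g10' (w : Fin 2 → ℂ) : Fin 2 → ℂ := ![-(w 1 * (1 - w 0)) / (1 - w 1), 1 / (w 0 * w 1)]
noncomputable def m10 (w : Fin 2 → ℂ) : ℂ := ∏ j, (![(1 - cr 0 w), cr 1 w, (1 - cr 2 w), 1, (1 - cr 4 w)] : Fin 5 → ℂ) j

theorem f10 {u v : ℂ} (hu : u ≠ 0) (hv : v ≠ 0) (hu1 : 1 - u ≠ 0) (hv1 : 1 - v ≠ 0)
    (huv : 1 - u * v ≠ 0) :
    1 - ((1 - u) / (1 - u * v)) = (u * (1 - v)) / (1 - u * v) ∧
    1 - ((1 - u * v) / (v * (1 - u))) = -(1 - v) / (v * (1 - u)) ∧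
    1 - ((1 - u) / (1 - u * v)) * ((1 - u * v) / (v * (1 - u))) = -(1 - v) / v := by
  have huv2 : 1 - v * u ≠ 0 := by rwa [mul_comm]
  refine ⟨?_, ?_, ?_⟩ <;> first | done | rfl | (field_simp; done) | (field_simp; ring1) | ring1

theorem f10' {u v : ℂ} (hu : u ≠ 0) (hv : v ≠ 0) (hu1 : 1 - u ≠ 0) (hv1 : 1 - v ≠ 0)
    (huv : 1 - u * v ≠ 0) :
    1 - (-(v * (1 - u)) / (1 - v)) = (1 - u * v) / (1 - v) ∧
    1 - (1 / (u * v)) = -(1 - u * v) / (u * v) ∧
    1 - (-(v * (1 - u)) / (1 - v)) * (1 / (u * v)) = (1 - u * v) / (u * (1 - v)) := by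
  have huv2 : 1 - v * u ≠ 0 := by rwa [mul_comm]
  refine ⟨?_, ?_, ?_⟩ <;> first | done | rfl | (field_simp; done) | (field_simp; ring1) | ring1

theorem a10_maps : MapsTo g10 V V := fun w hw => by
    obtain ⟨hu, hv, hu1, hv1, huv⟩ := V_ne hw
    obtain ⟨h1, h2, h3⟩ := f10 hu hv hu1 hv1 huv
    refine mem_V (div_ne_zero hu1 huv) (div_ne_zero huv (mul_ne_zero hv hu1)) ?_ ?_ ?_
    · rw [h1]; exact (div_ne_zero (mul_ne_zero hu hv1) huv)
    · rw [h2]; exact (div_ne_zero (neg_ne_zero.2 hv1) (mul_ne_zero hv hu1))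
    · rw [h3]; exact (div_ne_zero (neg_ne_zero.2 hv1) hv)

theorem a10_maps' : MapsTo g10' V V := fun w hw => by
    obtain ⟨hu, hv, hu1, hv1, huv⟩ := V_ne hw
    obtain ⟨h1, h2, h3⟩ := f10' hu hv hu1 hv1 huv
    refine mem_V (div_ne_zero (neg_ne_zero.2 (mul_ne_zero hv hu1)) hv1) (div_ne_zero one_ne_zero (mul_ne_zero hu hv)) ?_ ?_ ?_
    · rw [h1]; exact (div_ne_zero huv hv1)
    · rw [h2]; exact (div_ne_zero (neg_ne_zero.2 huv) (mul_ne_zero hu hv))
    · rw [h3]; exact (div_ne_zero huv (mul_ne_zero hu hv1))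

theorem a10_diff : DifferentiableOn ℂ g10 V := fun w hw => by
    obtain ⟨hu, hv, hu1, hv1, huv⟩ := V_ne hw
    refine (diff_pair (f := fun w => (1 - w 0) / (1 - w 0 * w 1)) (g := fun w => (1 - w 0 * w 1) / (w 1 * (1 - w 0))) ?_ ?_).differentiableWithinAt
    · fun_prop (disch := assumption)
    · have hd := (mul_ne_zero hv hu1)
      fun_prop (disch := assumption)

theorem a10_diff' : DifferentiableOn ℂ g10' V := fun w hw => by
    obtain ⟨hu, hv, hu1, hv1, huv⟩ := V_ne hw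
    refine (diff_pair (f := fun w => -(w 1 * (1 - w 0)) / (1 - w 1)) (g := fun w => 1 / (w 0 * w 1)) ?_ ?_).differentiableWithinAt
    · fun_prop (disch := assumption)
    · have hd := (mul_ne_zero hu hv)
      fun_prop (disch := assumption)

theorem a10_left : LeftInvOn g10' g10 V := fun w hw => by
    obtain ⟨hu, hv, hu1, hv1, huv⟩ := V_ne hw
    have huv2 : 1 - w 1 * w 0 ≠ 0 := by rwa [mul_comm]
    obtain ⟨a, ha⟩ : ∃ a : ℂ, a = (1 - w 0) / (1 - w 0 * w 1) := ⟨_, rfl⟩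
    obtain ⟨b, hb⟩ : ∃ b : ℂ, b = (1 - w 0 * w 1) / (w 1 * (1 - w 0)) := ⟨_, rfl⟩
    have hG : g10 w = ![a, b] := by rw [ha, hb]; rfl
    have h1 : 1 - a = (w 0 * (1 - w 1)) / (1 - w 0 * w 1) := by subst ha; exact (f10 hu hv hu1 hv1 huv).1
    have h2 : 1 - b = -(1 - w 1) / (w 1 * (1 - w 0)) := by subst hb; exact (f10 hu hv hu1 hv1 huv).2.1
    have h3 : 1 - a * b = -(1 - w 1) / w 1 := by subst ha hb; exact (f10 hu hv hu1 hv1 huv).2.2
    rw [hG]
    funext i
    fin_cases i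
    · show -(b * (1 - a)) / (1 - b) = w 0
      rw [h1, h2, hb]
      first | done | rfl | (field_simp; done) | (field_simp; ring1) | ring1
    · show 1 / (a * b) = w 1
      rw [ha, hb]
      first | done | rfl | (field_simp; done) | (field_simp; ring1) | ring1

theorem a10_right : LeftInvOn g10 g10' V := fun w hw => by
    obtain ⟨hu, hv, hu1, hv1, huv⟩ := V_ne hw
    have huv2 : 1 - w 1 * w 0 ≠ 0 := by rwa [mul_comm]
    obtain ⟨a, ha⟩ : ∃ a : ℂ, a = -(w 1 * (1 - w 0)) / (1 - w 1) := ⟨_, rfl⟩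
    obtain ⟨b, hb⟩ : ∃ b : ℂ, b = 1 / (w 0 * w 1) := ⟨_, rfl⟩
    have hG : g10' w = ![a, b] := by rw [ha, hb]; rfl
    have h1 : 1 - a = (1 - w 0 * w 1) / (1 - w 1) := by subst ha; exact (f10' hu hv hu1 hv1 huv).1
    have h2 : 1 - b = -(1 - w 0 * w 1) / (w 0 * w 1) := by subst hb; exact (f10' hu hv hu1 hv1 huv).2.1
    have h3 : 1 - a * b = (1 - w 0 * w 1) / (w 0 * (1 - w 1)) := by subst ha hb; exact (f10' hu hv hu1 hv1 huv).2.2
    rw [hG]
    funext i
    fin_cases i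
    · show (1 - a) / (1 - a * b) = w 0
      rw [h1, h3]
      first | done | rfl | (field_simp; done) | (field_simp; ring1) | ring1
    · show (1 - a * b) / (b * (1 - a)) = w 1
      rw [h1, h3, hb]
      first | done | rfl | (field_simp; done) | (field_simp; ring1) | ring1

theorem a10_mdiff : DifferentiableOn ℂ m10 V := fun w hw => by
    refine DifferentiableAt.differentiableWithinAt ?_
    show DifferentiableAt ℂ (fun w => ∏ j, (![(1 - cr 0 w), cr 1 w, (1 - cr 2 w), 1, (1 - cr 4 w)] : Fin 5 → ℂ) j) w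
    simp only [Fin.prod_univ_five]
    exact ((((((differentiableAt_const 1).fun_sub (cr_diff hw 0)).fun_mul (cr_diff hw 1)).fun_mul ((differentiableAt_const 1).fun_sub (cr_diff hw 2))).fun_mul (differentiableAt_const 1)).fun_mul ((differentiableAt_const 1).fun_sub (cr_diff hw 4)))

theorem a10_mne : ∀ w ∈ V, m10 w ≠ 0 := fun w hw => by
    refine Finset.prod_ne_zero_iff.2 fun j _ => ?_
    fin_cases j
    · exact (cr_ne hw 0).2
    · exact (cr_ne hw 1).1
    · exact (cr_ne hw 2).2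
    · exact one_ne_zero
    · exact (cr_ne hw 4).2

theorem a10_wt : ∀ w ∈ V, Real.exp (phi (g10 w)) * ‖m10 w‖ ^ 2 = Real.exp (phi w) := fun w hw => by
    obtain ⟨hu, hv, hu1, hv1, huv⟩ := V_ne hw
    have huv2 : 1 - w 1 * w 0 ≠ 0 := by rwa [mul_comm]
    obtain ⟨e3, e4⟩ := one_sub_cr hw
    obtain ⟨a, ha⟩ : ∃ a : ℂ, a = (1 - w 0) / (1 - w 0 * w 1) := ⟨_, rfl⟩
    obtain ⟨b, hb⟩ : ∃ b : ℂ, b = (1 - w 0 * w 1) / (w 1 * (1 - w 0)) := ⟨_, rfl⟩
    have hG : g10 w = ![a, b] := by rw [ha, hb]; rfl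
    have h1 : 1 - a = (w 0 * (1 - w 1)) / (1 - w 0 * w 1) := by subst ha; exact (f10 hu hv hu1 hv1 huv).1
    have h2 : 1 - b = -(1 - w 1) / (w 1 * (1 - w 0)) := by subst hb; exact (f10 hu hv hu1 hv1 huv).2.1
    have h3 : 1 - a * b = -(1 - w 1) / w 1 := by subst ha hb; exact (f10 hu hv hu1 hv1 huv).2.2
    rw [exp_phi_Nc, exp_phi_Nc]
    refine wt_prod ![4, 2, 3, 0, 1] (by decide) fun j => ?_
    rw [hG]
    fin_cases j
    · refine wt_invsub ?_
      show (1 - b) / (1 - a * b) * (1 - w 0) = 1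
      rw [h2, h3]
      first | done | rfl | (field_simp; done) | (field_simp; ring1) | ring1
    · refine wt_inv ?_
      show (a * b) * w 1 = 1
      rw [ha, hb]
      first | done | rfl | (field_simp; done) | (field_simp; ring1) | ring1
    · refine wt_div ?_
      show (1 - a) / (1 - a * b) * (1 - w 0 * w 1) = -(w 0 * w 1)
      rw [h1, h3]
      first | done | rfl | (field_simp; done) | (field_simp; ring1) | ring1
    · refine wt_id ?_
      show a = ((1 - w 0) / (1 - w 0 * w 1))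
      rw [ha]
      first | done | rfl | (field_simp; done) | (field_simp; ring1) | ring1
    · refine wt_invsub ?_
      show b * (1 - (1 - w 1) / (1 - w 0 * w 1)) = 1
      rw [cr_four] at e4
      rw [hb, e4]
      first | done | rfl | (field_simp; done) | (field_simp; ring1) | ring1

theorem adm10 : Adm g10 g10' m10 :=
  ⟨a10_maps, a10_maps', a10_diff, a10_diff', a10_left, a10_right, a10_mdiff, a10_mne, a10_wt⟩

/-! ### node 11 -/

noncomputable def g11 (w : Fin 2 → ℂ) : Fin 2 → ℂ := ![w 0, 1 / (w 0 * w 1)]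
noncomputable def g11' (w : Fin 2 → ℂ) : Fin 2 → ℂ := ![w 0, 1 / (w 0 * w 1)]
noncomputable def m11 (w : Fin 2 → ℂ) : ℂ := ∏ j, (![1, cr 1 w, cr 2 w, (1 - cr 3 w), cr 4 w] : Fin 5 → ℂ) j

theorem f11 {u v : ℂ} (hu : u ≠ 0) (hv : v ≠ 0) (hu1 : 1 - u ≠ 0) (hv1 : 1 - v ≠ 0)
    (huv : 1 - u * v ≠ 0) :
    1 - (u) = (1 - u) ∧
    1 - (1 / (u * v)) = -(1 - u * v) / (u * v) ∧
    1 - (u) * (1 / (u * v)) = -(1 - v) / v := by
  have huv2 : 1 - v * u ≠ 0 := by rwa [mul_comm]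
  refine ⟨?_, ?_, ?_⟩ <;> first | done | rfl | (field_simp; done) | (field_simp; ring1) | ring1

theorem f11' {u v : ℂ} (hu : u ≠ 0) (hv : v ≠ 0) (hu1 : 1 - u ≠ 0) (hv1 : 1 - v ≠ 0)
    (huv : 1 - u * v ≠ 0) :
    1 - (u) = (1 - u) ∧
    1 - (1 / (u * v)) = -(1 - u * v) / (u * v) ∧
    1 - (u) * (1 / (u * v)) = -(1 - v) / v := by
  have huv2 : 1 - v * u ≠ 0 := by rwa [mul_comm]
  refine ⟨?_, ?_, ?_⟩ <;> first | done | rfl | (field_simp; done) | (field_simp; ring1) | ring1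

theorem a11_maps : MapsTo g11 V V := fun w hw => by
    obtain ⟨hu, hv, hu1, hv1, huv⟩ := V_ne hw
    obtain ⟨h1, h2, h3⟩ := f11 hu hv hu1 hv1 huv
    refine mem_V hu (div_ne_zero one_ne_zero (mul_ne_zero hu hv)) ?_ ?_ ?_
    · rw [h1]; exact hu1
    · rw [h2]; exact (div_ne_zero (neg_ne_zero.2 huv) (mul_ne_zero hu hv))
    · rw [h3]; exact (div_ne_zero (neg_ne_zero.2 hv1) hv)

theorem a11_maps' : MapsTo g11' V V := fun w hw => by
    obtain ⟨hu, hv, hu1, hv1, huv⟩ := V_ne hw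
    obtain ⟨h1, h2, h3⟩ := f11' hu hv hu1 hv1 huv
    refine mem_V hu (div_ne_zero one_ne_zero (mul_ne_zero hu hv)) ?_ ?_ ?_
    · rw [h1]; exact hu1
    · rw [h2]; exact (div_ne_zero (neg_ne_zero.2 huv) (mul_ne_zero hu hv))
    · rw [h3]; exact (div_ne_zero (neg_ne_zero.2 hv1) hv)

theorem a11_diff : DifferentiableOn ℂ g11 V := fun w hw => by
    obtain ⟨hu, hv, hu1, hv1, huv⟩ := V_ne hw
    refine (diff_pair (f := fun w => w 0) (g := fun w => 1 / (w 0 * w 1)) ?_ ?_).differentiableWithinAt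
    · fun_prop (disch := assumption)
    · have hd := (mul_ne_zero hu hv)
      fun_prop (disch := assumption)

theorem a11_diff' : DifferentiableOn ℂ g11' V := fun w hw => by
    obtain ⟨hu, hv, hu1, hv1, huv⟩ := V_ne hw
    refine (diff_pair (f := fun w => w 0) (g := fun w => 1 / (w 0 * w 1)) ?_ ?_).differentiableWithinAt
    · fun_prop (disch := assumption)
    · have hd := (mul_ne_zero hu hv)
      fun_prop (disch := assumption)

theorem a11_left : LeftInvOn g11' g11 V := fun w hw => by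
    obtain ⟨hu, hv, hu1, hv1, huv⟩ := V_ne hw
    have huv2 : 1 - w 1 * w 0 ≠ 0 := by rwa [mul_comm]
    obtain ⟨a, ha⟩ : ∃ a : ℂ, a = w 0 := ⟨_, rfl⟩
    obtain ⟨b, hb⟩ : ∃ b : ℂ, b = 1 / (w 0 * w 1) := ⟨_, rfl⟩
    have hG : g11 w = ![a, b] := by rw [ha, hb]; rfl
    have h1 : 1 - a = (1 - w 0) := by subst ha; exact (f11 hu hv hu1 hv1 huv).1
    have h2 : 1 - b = -(1 - w 0 * w 1) / (w 0 * w 1) := by subst hb; exact (f11 hu hv hu1 hv1 huv).2.1
    have h3 : 1 - a * b = -(1 - w 1) / w 1 := by subst ha hb; exact (f11 hu hv hu1 hv1 huv).2.2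
    rw [hG]
    funext i
    fin_cases i
    · show a = w 0
      rw [ha]
      first | done | rfl | (field_simp; done) | (field_simp; ring1) | ring1
    · show 1 / (a * b) = w 1
      rw [ha, hb]
      first | done | rfl | (field_simp; done) | (field_simp; ring1) | ring1

theorem a11_right : LeftInvOn g11 g11' V := fun w hw => by
    obtain ⟨hu, hv, hu1, hv1, huv⟩ := V_ne hw
    have huv2 : 1 - w 1 * w 0 ≠ 0 := by rwa [mul_comm]
    obtain ⟨a, ha⟩ : ∃ a : ℂ, a = w 0 := ⟨_, rfl⟩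
    obtain ⟨b, hb⟩ : ∃ b : ℂ, b = 1 / (w 0 * w 1) := ⟨_, rfl⟩
    have hG : g11' w = ![a, b] := by rw [ha, hb]; rfl
    have h1 : 1 - a = (1 - w 0) := by subst ha; exact (f11' hu hv hu1 hv1 huv).1
    have h2 : 1 - b = -(1 - w 0 * w 1) / (w 0 * w 1) := by subst hb; exact (f11' hu hv hu1 hv1 huv).2.1
    have h3 : 1 - a * b = -(1 - w 1) / w 1 := by subst ha hb; exact (f11' hu hv hu1 hv1 huv).2.2
    rw [hG]
    funext i
    fin_cases i
    · show a = w 0
      rw [ha]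
      first | done | rfl | (field_simp; done) | (field_simp; ring1) | ring1
    · show 1 / (a * b) = w 1
      rw [ha, hb]
      first | done | rfl | (field_simp; done) | (field_simp; ring1) | ring1

theorem a11_mdiff : DifferentiableOn ℂ m11 V := fun w hw => by
    refine DifferentiableAt.differentiableWithinAt ?_
    show DifferentiableAt ℂ (fun w => ∏ j, (![1, cr 1 w, cr 2 w, (1 - cr 3 w), cr 4 w] : Fin 5 → ℂ) j) w
    simp only [Fin.prod_univ_five]
    exact (((((differentiableAt_const 1).fun_mul (cr_diff hw 1)).fun_mul (cr_diff hw 2)).fun_mul ((differentiableAt_const 1).fun_sub (cr_diff hw 3))).fun_mul (cr_diff hw 4))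

theorem a11_mne : ∀ w ∈ V, m11 w ≠ 0 := fun w hw => by
    refine Finset.prod_ne_zero_iff.2 fun j _ => ?_
    fin_cases j
    · exact one_ne_zero
    · exact (cr_ne hw 1).1
    · exact (cr_ne hw 2).1
    · exact (cr_ne hw 3).2
    · exact (cr_ne hw 4).1

theorem a11_wt : ∀ w ∈ V, Real.exp (phi (g11 w)) * ‖m11 w‖ ^ 2 = Real.exp (phi w) := fun w hw => by
    obtain ⟨hu, hv, hu1, hv1, huv⟩ := V_ne hw
    have huv2 : 1 - w 1 * w 0 ≠ 0 := by rwa [mul_comm]
    obtain ⟨e3, e4⟩ := one_sub_cr hw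
    obtain ⟨a, ha⟩ : ∃ a : ℂ, a = w 0 := ⟨_, rfl⟩
    obtain ⟨b, hb⟩ : ∃ b : ℂ, b = 1 / (w 0 * w 1) := ⟨_, rfl⟩
    have hG : g11 w = ![a, b] := by rw [ha, hb]; rfl
    have h1 : 1 - a = (1 - w 0) := by subst ha; exact (f11 hu hv hu1 hv1 huv).1
    have h2 : 1 - b = -(1 - w 0 * w 1) / (w 0 * w 1) := by subst hb; exact (f11 hu hv hu1 hv1 huv).2.1
    have h3 : 1 - a * b = -(1 - w 1) / w 1 := by subst ha hb; exact (f11 hu hv hu1 hv1 huv).2.2
    rw [exp_phi_Nc, exp_phi_Nc]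
    refine wt_prod ![0, 2, 1, 4, 3] (by decide) fun j => ?_
    rw [hG]
    fin_cases j
    · refine wt_id ?_
      show a = w 0
      rw [ha]
      first | done | rfl | (field_simp; done) | (field_simp; ring1) | ring1
    · refine wt_inv ?_
      show (a * b) * w 1 = 1
      rw [ha, hb]
      first | done | rfl | (field_simp; done) | (field_simp; ring1) | ring1
    · refine wt_inv ?_
      show b * (w 0 * w 1) = 1
      rw [hb]
      first | done | rfl | (field_simp; done) | (field_simp; ring1) | ring1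
    · refine wt_invsub ?_
      show (1 - b) / (1 - a * b) * (1 - (1 - w 0) / (1 - w 0 * w 1)) = 1
      rw [cr_three] at e3
      rw [h2, h3, e3]
      first | done | rfl | (field_simp; done) | (field_simp; ring1) | ring1
    · refine wt_subdiv ?_
      show (1 - a) / (1 - a * b) * ((1 - w 1) / (1 - w 0 * w 1)) = -(1 - (1 - w 1) / (1 - w 0 * w 1))
      rw [cr_four] at e4
      rw [h1, h3, e4]
      first | done | rfl | (field_simp; done) | (field_simp; ring1) | ring1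

theorem adm11 : Adm g11 g11' m11 :=
  ⟨a11_maps, a11_maps', a11_diff, a11_diff', a11_left, a11_right, a11_mdiff, a11_mne, a11_wt⟩

/-! ### node 12 -/

noncomputable def g12 (w : Fin 2 → ℂ) : Fin 2 → ℂ := ![1 / w 0, 1 / w 1]
noncomputable def g12' (w : Fin 2 → ℂ) : Fin 2 → ℂ := ![1 / w 0, 1 / w 1]
noncomputable def m12 (w : Fin 2 → ℂ) : ℂ := ∏ j, (![cr 0 w, cr 1 w, cr 2 w, 1, 1] : Fin 5 → ℂ) j

theorem f12 {u v : ℂ} (hu : u ≠ 0) (hv : v ≠ 0) (hu1 : 1 - u ≠ 0) (hv1 : 1 - v ≠ 0)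
    (huv : 1 - u * v ≠ 0) :
    1 - (1 / u) = -(1 - u) / u ∧
    1 - (1 / v) = -(1 - v) / v ∧
    1 - (1 / u) * (1 / v) = -(1 - u * v) / (u * v) := by
  have huv2 : 1 - v * u ≠ 0 := by rwa [mul_comm]
  refine ⟨?_, ?_, ?_⟩ <;> first | done | rfl | (field_simp; done) | (field_simp; ring1) | ring1

theorem f12' {u v : ℂ} (hu : u ≠ 0) (hv : v ≠ 0) (hu1 : 1 - u ≠ 0) (hv1 : 1 - v ≠ 0)
    (huv : 1 - u * v ≠ 0) :
    1 - (1 / u) = -(1 - u) / u ∧
    1 - (1 / v) = -(1 - v) / v ∧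
    1 - (1 / u) * (1 / v) = -(1 - u * v) / (u * v) := by
  have huv2 : 1 - v * u ≠ 0 := by rwa [mul_comm]
  refine ⟨?_, ?_, ?_⟩ <;> first | done | rfl | (field_simp; done) | (field_simp; ring1) | ring1

theorem a12_maps : MapsTo g12 V V := fun w hw => by
    obtain ⟨hu, hv, hu1, hv1, huv⟩ := V_ne hw
    obtain ⟨h1, h2, h3⟩ := f12 hu hv hu1 hv1 huv
    refine mem_V (div_ne_zero one_ne_zero hu) (div_ne_zero one_ne_zero hv) ?_ ?_ ?_
    · rw [h1]; exact (div_ne_zero (neg_ne_zero.2 hu1) hu)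
    · rw [h2]; exact (div_ne_zero (neg_ne_zero.2 hv1) hv)
    · rw [h3]; exact (div_ne_zero (neg_ne_zero.2 huv) (mul_ne_zero hu hv))

theorem a12_maps' : MapsTo g12' V V := fun w hw => by
    obtain ⟨hu, hv, hu1, hv1, huv⟩ := V_ne hw
    obtain ⟨h1, h2, h3⟩ := f12' hu hv hu1 hv1 huv
    refine mem_V (div_ne_zero one_ne_zero hu) (div_ne_zero one_ne_zero hv) ?_ ?_ ?_
    · rw [h1]; exact (div_ne_zero (neg_ne_zero.2 hu1) hu)
    · rw [h2]; exact (div_ne_zero (neg_ne_zero.2 hv1) hv)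
    · rw [h3]; exact (div_ne_zero (neg_ne_zero.2 huv) (mul_ne_zero hu hv))

theorem a12_diff : DifferentiableOn ℂ g12 V := fun w hw => by
    obtain ⟨hu, hv, hu1, hv1, huv⟩ := V_ne hw
    refine (diff_pair (f := fun w => 1 / w 0) (g := fun w => 1 / w 1) ?_ ?_).differentiableWithinAt
    · fun_prop (disch := assumption)
    · fun_prop (disch := assumption)

theorem a12_diff' : DifferentiableOn ℂ g12' V := fun w hw => by
    obtain ⟨hu, hv, hu1, hv1, huv⟩ := V_ne hw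
    refine (diff_pair (f := fun w => 1 / w 0) (g := fun w => 1 / w 1) ?_ ?_).differentiableWithinAt
    · fun_prop (disch := assumption)
    · fun_prop (disch := assumption)

theorem a12_left : LeftInvOn g12' g12 V := fun w hw => by
    obtain ⟨hu, hv, hu1, hv1, huv⟩ := V_ne hw
    have huv2 : 1 - w 1 * w 0 ≠ 0 := by rwa [mul_comm]
    obtain ⟨a, ha⟩ : ∃ a : ℂ, a = 1 / w 0 := ⟨_, rfl⟩
    obtain ⟨b, hb⟩ : ∃ b : ℂ, b = 1 / w 1 := ⟨_, rfl⟩
    have hG : g12 w = ![a, b] := by rw [ha, hb]; rfl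
    have h1 : 1 - a = -(1 - w 0) / w 0 := by subst ha; exact (f12 hu hv hu1 hv1 huv).1
    have h2 : 1 - b = -(1 - w 1) / w 1 := by subst hb; exact (f12 hu hv hu1 hv1 huv).2.1
    have h3 : 1 - a * b = -(1 - w 0 * w 1) / (w 0 * w 1) := by subst ha hb; exact (f12 hu hv hu1 hv1 huv).2.2
    rw [hG]
    funext i
    fin_cases i
    · show 1 / a = w 0
      rw [ha]
      first | done | rfl | (field_simp; done) | (field_simp; ring1) | ring1
    · show 1 / b = w 1
      rw [hb]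
      first | done | rfl | (field_simp; done) | (field_simp; ring1) | ring1

theorem a12_right : LeftInvOn g12 g12' V := fun w hw => by
    obtain ⟨hu, hv, hu1, hv1, huv⟩ := V_ne hw
    have huv2 : 1 - w 1 * w 0 ≠ 0 := by rwa [mul_comm]
    obtain ⟨a, ha⟩ : ∃ a : ℂ, a = 1 / w 0 := ⟨_, rfl⟩
    obtain ⟨b, hb⟩ : ∃ b : ℂ, b = 1 / w 1 := ⟨_, rfl⟩
    have hG : g12' w = ![a, b] := by rw [ha, hb]; rfl
    have h1 : 1 - a = -(1 - w 0) / w 0 := by subst ha; exact (f12' hu hv hu1 hv1 huv).1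
    have h2 : 1 - b = -(1 - w 1) / w 1 := by subst hb; exact (f12' hu hv hu1 hv1 huv).2.1
    have h3 : 1 - a * b = -(1 - w 0 * w 1) / (w 0 * w 1) := by subst ha hb; exact (f12' hu hv hu1 hv1 huv).2.2
    rw [hG]
    funext i
    fin_cases i
    · show 1 / a = w 0
      rw [ha]
      first | done | rfl | (field_simp; done) | (field_simp; ring1) | ring1
    · show 1 / b = w 1
      rw [hb]
      first | done | rfl | (field_simp; done) | (field_simp; ring1) | ring1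

theorem a12_mdiff : DifferentiableOn ℂ m12 V := fun w hw => by
    refine DifferentiableAt.differentiableWithinAt ?_
    show DifferentiableAt ℂ (fun w => ∏ j, (![cr 0 w, cr 1 w, cr 2 w, 1, 1] : Fin 5 → ℂ) j) w
    simp only [Fin.prod_univ_five]
    exact (((((cr_diff hw 0).fun_mul (cr_diff hw 1)).fun_mul (cr_diff hw 2)).fun_mul (differentiableAt_const 1)).fun_mul (differentiableAt_const 1))

theorem a12_mne : ∀ w ∈ V, m12 w ≠ 0 := fun w hw => by
    refine Finset.prod_ne_zero_iff.2 fun j _ => ?_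
    fin_cases j
    · exact (cr_ne hw 0).1
    · exact (cr_ne hw 1).1
    · exact (cr_ne hw 2).1
    · exact one_ne_zero
    · exact one_ne_zero

theorem a12_wt : ∀ w ∈ V, Real.exp (phi (g12 w)) * ‖m12 w‖ ^ 2 = Real.exp (phi w) := fun w hw => by
    obtain ⟨hu, hv, hu1, hv1, huv⟩ := V_ne hw
    have huv2 : 1 - w 1 * w 0 ≠ 0 := by rwa [mul_comm]
    obtain ⟨e3, e4⟩ := one_sub_cr hw
    obtain ⟨a, ha⟩ : ∃ a : ℂ, a = 1 / w 0 := ⟨_, rfl⟩
    obtain ⟨b, hb⟩ : ∃ b : ℂ, b = 1 / w 1 := ⟨_, rfl⟩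
    have hG : g12 w = ![a, b] := by rw [ha, hb]; rfl
    have h1 : 1 - a = -(1 - w 0) / w 0 := by subst ha; exact (f12 hu hv hu1 hv1 huv).1
    have h2 : 1 - b = -(1 - w 1) / w 1 := by subst hb; exact (f12 hu hv hu1 hv1 huv).2.1
    have h3 : 1 - a * b = -(1 - w 0 * w 1) / (w 0 * w 1) := by subst ha hb; exact (f12 hu hv hu1 hv1 huv).2.2
    rw [exp_phi_Nc, exp_phi_Nc]
    refine wt_prod ![0, 1, 2, 4, 3] (by decide) fun j => ?_
    rw [hG]
    fin_cases j
    · refine wt_inv ?_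
      show a * w 0 = 1
      rw [ha]
      first | done | rfl | (field_simp; done) | (field_simp; ring1) | ring1
    · refine wt_inv ?_
      show b * w 1 = 1
      rw [hb]
      first | done | rfl | (field_simp; done) | (field_simp; ring1) | ring1
    · refine wt_inv ?_
      show (a * b) * (w 0 * w 1) = 1
      rw [ha, hb]
      first | done | rfl | (field_simp; done) | (field_simp; ring1) | ring1
    · refine wt_sub ?_
      show (1 - b) / (1 - a * b) = (1 - (1 - w 0) / (1 - w 0 * w 1))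
      rw [cr_three] at e3
      rw [h2, h3, e3]
      first | done | rfl | (field_simp; done) | (field_simp; ring1) | ring1
    · refine wt_sub ?_
      show (1 - a) / (1 - a * b) = (1 - (1 - w 1) / (1 - w 0 * w 1))
      rw [cr_four] at e4
      rw [h1, h3, e4]
      first | done | rfl | (field_simp; done) | (field_simp; ring1) | ring1

theorem adm12 : Adm g12 g12' m12 :=
  ⟨a12_maps, a12_maps', a12_diff, a12_diff', a12_left, a12_right, a12_mdiff, a12_mne, a12_wt⟩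

/-! ### node 13 -/

noncomputable def g13 (w : Fin 2 → ℂ) : Fin 2 → ℂ := ![1 / w 1, (1 - w 0 * w 1) / (1 - w 0)]
noncomputable def g13' (w : Fin 2 → ℂ) : Fin 2 → ℂ := ![(w 0 * (1 - w 1)) / (1 - w 0 * w 1), 1 / w 0]
noncomputable def m13 (w : Fin 2 → ℂ) : ℂ := ∏ j, (![1, cr 1 w, 1, cr 3 w, (1 - cr 4 w)] : Fin 5 → ℂ) j

theorem f13 {u v : ℂ} (hu : u ≠ 0) (hv : v ≠ 0) (hu1 : 1 - u ≠ 0) (hv1 : 1 - v ≠ 0)
    (huv : 1 - u * v ≠ 0) :
    1 - (1 / v) = -(1 - v) / v ∧
    1 - ((1 - u * v) / (1 - u)) = -(u * (1 - v)) / (1 - u) ∧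
    1 - (1 / v) * ((1 - u * v) / (1 - u)) = -(1 - v) / (v * (1 - u)) := by
  have huv2 : 1 - v * u ≠ 0 := by rwa [mul_comm]
  refine ⟨?_, ?_, ?_⟩ <;> first | done | rfl | (field_simp; done) | (field_simp; ring1) | ring1

theorem f13' {u v : ℂ} (hu : u ≠ 0) (hv : v ≠ 0) (hu1 : 1 - u ≠ 0) (hv1 : 1 - v ≠ 0)
    (huv : 1 - u * v ≠ 0) :
    1 - ((u * (1 - v)) / (1 - u * v)) = (1 - u) / (1 - u * v) ∧
    1 - (1 / u) = -(1 - u) / u ∧
    1 - ((u * (1 - v)) / (1 - u * v)) * (1 / u) = (v * (1 - u)) / (1 - u * v) := by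
  have huv2 : 1 - v * u ≠ 0 := by rwa [mul_comm]
  refine ⟨?_, ?_, ?_⟩ <;> first | done | rfl | (field_simp; done) | (field_simp; ring1) | ring1

theorem a13_maps : MapsTo g13 V V := fun w hw => by
    obtain ⟨hu, hv, hu1, hv1, huv⟩ := V_ne hw
    obtain ⟨h1, h2, h3⟩ := f13 hu hv hu1 hv1 huv
    refine mem_V (div_ne_zero one_ne_zero hv) (div_ne_zero huv hu1) ?_ ?_ ?_
    · rw [h1]; exact (div_ne_zero (neg_ne_zero.2 hv1) hv)
    · rw [h2]; exact (div_ne_zero (neg_ne_zero.2 (mul_ne_zero hu hv1)) hu1)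
    · rw [h3]; exact (div_ne_zero (neg_ne_zero.2 hv1) (mul_ne_zero hv hu1))

theorem a13_maps' : MapsTo g13' V V := fun w hw => by
    obtain ⟨hu, hv, hu1, hv1, huv⟩ := V_ne hw
    obtain ⟨h1, h2, h3⟩ := f13' hu hv hu1 hv1 huv
    refine mem_V (div_ne_zero (mul_ne_zero hu hv1) huv) (div_ne_zero one_ne_zero hu) ?_ ?_ ?_
    · rw [h1]; exact (div_ne_zero hu1 huv)
    · rw [h2]; exact (div_ne_zero (neg_ne_zero.2 hu1) hu)
    · rw [h3]; exact (div_ne_zero (mul_ne_zero hv hu1) huv)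

theorem a13_diff : DifferentiableOn ℂ g13 V := fun w hw => by
    obtain ⟨hu, hv, hu1, hv1, huv⟩ := V_ne hw
    refine (diff_pair (f := fun w => 1 / w 1) (g := fun w => (1 - w 0 * w 1) / (1 - w 0)) ?_ ?_).differentiableWithinAt
    · fun_prop (disch := assumption)
    · fun_prop (disch := assumption)

theorem a13_diff' : DifferentiableOn ℂ g13' V := fun w hw => by
    obtain ⟨hu, hv, hu1, hv1, huv⟩ := V_ne hw
    refine (diff_pair (f := fun w => (w 0 * (1 - w 1)) / (1 - w 0 * w 1)) (g := fun w => 1 / w 0) ?_ ?_).differentiableWithinAt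
    · fun_prop (disch := assumption)
    · fun_prop (disch := assumption)

theorem a13_left : LeftInvOn g13' g13 V := fun w hw => by
    obtain ⟨hu, hv, hu1, hv1, huv⟩ := V_ne hw
    have huv2 : 1 - w 1 * w 0 ≠ 0 := by rwa [mul_comm]
    obtain ⟨a, ha⟩ : ∃ a : ℂ, a = 1 / w 1 := ⟨_, rfl⟩
    obtain ⟨b, hb⟩ : ∃ b : ℂ, b = (1 - w 0 * w 1) / (1 - w 0) := ⟨_, rfl⟩
    have hG : g13 w = ![a, b] := by rw [ha, hb]; rfl
    have h1 : 1 - a = -(1 - w 1) / w 1 := by subst ha; exact (f13 hu hv hu1 hv1 huv).1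
    have h2 : 1 - b = -(w 0 * (1 - w 1)) / (1 - w 0) := by subst hb; exact (f13 hu hv hu1 hv1 huv).2.1
    have h3 : 1 - a * b = -(1 - w 1) / (w 1 * (1 - w 0)) := by subst ha hb; exact (f13 hu hv hu1 hv1 huv).2.2
    rw [hG]
    funext i
    fin_cases i
    · show (a * (1 - b)) / (1 - a * b) = w 0
      rw [h2, h3, ha]
      first | done | rfl | (field_simp; done) | (field_simp; ring1) | ring1
    · show 1 / a = w 1
      rw [ha]
      first | done | rfl | (field_simp; done) | (field_simp; ring1) | ring1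

theorem a13_right : LeftInvOn g13 g13' V := fun w hw => by
    obtain ⟨hu, hv, hu1, hv1, huv⟩ := V_ne hw
    have huv2 : 1 - w 1 * w 0 ≠ 0 := by rwa [mul_comm]
    obtain ⟨a, ha⟩ : ∃ a : ℂ, a = (w 0 * (1 - w 1)) / (1 - w 0 * w 1) := ⟨_, rfl⟩
    obtain ⟨b, hb⟩ : ∃ b : ℂ, b = 1 / w 0 := ⟨_, rfl⟩
    have hG : g13' w = ![a, b] := by rw [ha, hb]; rfl
    have h1 : 1 - a = (1 - w 0) / (1 - w 0 * w 1) := by subst ha; exact (f13' hu hv hu1 hv1 huv).1
    have h2 : 1 - b = -(1 - w 0) / w 0 := by subst hb; exact (f13' hu hv hu1 hv1 huv).2.1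
    have h3 : 1 - a * b = (w 1 * (1 - w 0)) / (1 - w 0 * w 1) := by subst ha hb; exact (f13' hu hv hu1 hv1 huv).2.2
    rw [hG]
    funext i
    fin_cases i
    · show 1 / b = w 0
      rw [hb]
      first | done | rfl | (field_simp; done) | (field_simp; ring1) | ring1
    · show (1 - a * b) / (1 - a) = w 1
      rw [h1, h3]
      first | done | rfl | (field_simp; done) | (field_simp; ring1) | ring1

theorem a13_mdiff : DifferentiableOn ℂ m13 V := fun w hw => by
    refine DifferentiableAt.differentiableWithinAt ?_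
    show DifferentiableAt ℂ (fun w => ∏ j, (![1, cr 1 w, 1, cr 3 w, (1 - cr 4 w)] : Fin 5 → ℂ) j) w
    simp only [Fin.prod_univ_five]
    exact (((((differentiableAt_const 1).fun_mul (cr_diff hw 1)).fun_mul (differentiableAt_const 1)).fun_mul (cr_diff hw 3)).fun_mul ((differentiableAt_const 1).fun_sub (cr_diff hw 4)))

theorem a13_mne : ∀ w ∈ V, m13 w ≠ 0 := fun w hw => by
    refine Finset.prod_ne_zero_iff.2 fun j _ => ?_
    fin_cases j
    · exact one_ne_zero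
    · exact (cr_ne hw 1).1
    · exact one_ne_zero
    · exact (cr_ne hw 3).1
    · exact (cr_ne hw 4).2

theorem a13_wt : ∀ w ∈ V, Real.exp (phi (g13 w)) * ‖m13 w‖ ^ 2 = Real.exp (phi w) := fun w hw => by
    obtain ⟨hu, hv, hu1, hv1, huv⟩ := V_ne hw
    have huv2 : 1 - w 1 * w 0 ≠ 0 := by rwa [mul_comm]
    obtain ⟨e3, e4⟩ := one_sub_cr hw
    obtain ⟨a, ha⟩ : ∃ a : ℂ, a = 1 / w 1 := ⟨_, rfl⟩
    obtain ⟨b, hb⟩ : ∃ b : ℂ, b = (1 - w 0 * w 1) / (1 - w 0) := ⟨_, rfl⟩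
    have hG : g13 w = ![a, b] := by rw [ha, hb]; rfl
    have h1 : 1 - a = -(1 - w 1) / w 1 := by subst ha; exact (f13 hu hv hu1 hv1 huv).1
    have h2 : 1 - b = -(w 0 * (1 - w 1)) / (1 - w 0) := by subst hb; exact (f13 hu hv hu1 hv1 huv).2.1
    have h3 : 1 - a * b = -(1 - w 1) / (w 1 * (1 - w 0)) := by subst ha hb; exact (f13 hu hv hu1 hv1 huv).2.2
    rw [exp_phi_Nc, exp_phi_Nc]
    refine wt_prod ![3, 0, 4, 1, 2] (by decide) fun j => ?_
    rw [hG]
    fin_cases j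
    · refine wt_sub ?_
      show (1 - a) / (1 - a * b) = (1 - w 0)
      rw [h1, h3]
      first | done | rfl | (field_simp; done) | (field_simp; ring1) | ring1
    · refine wt_inv ?_
      show a * w 1 = 1
      rw [ha]
      first | done | rfl | (field_simp; done) | (field_simp; ring1) | ring1
    · refine wt_id ?_
      show (1 - b) / (1 - a * b) = (w 0 * w 1)
      rw [h2, h3]
      first | done | rfl | (field_simp; done) | (field_simp; ring1) | ring1
    · refine wt_inv ?_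
      show b * ((1 - w 0) / (1 - w 0 * w 1)) = 1
      rw [hb]
      first | done | rfl | (field_simp; done) | (field_simp; ring1) | ring1
    · refine wt_invsub ?_
      show (a * b) * (1 - (1 - w 1) / (1 - w 0 * w 1)) = 1
      rw [cr_four] at e4
      rw [ha, hb, e4]
      first | done | rfl | (field_simp; done) | (field_simp; ring1) | ring1

theorem adm13 : Adm g13 g13' m13 :=
  ⟨a13_maps, a13_maps', a13_diff, a13_diff', a13_left, a13_right, a13_mdiff, a13_mne, a13_wt⟩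

/-! ### node 14 -/

noncomputable def g14 (w : Fin 2 → ℂ) : Fin 2 → ℂ := ![1 / (w 0 * w 1), w 0]
noncomputable def g14' (w : Fin 2 → ℂ) : Fin 2 → ℂ := ![w 1, 1 / (w 0 * w 1)]
noncomputable def m14 (w : Fin 2 → ℂ) : ℂ := ∏ j, (![1, cr 1 w, cr 2 w, (1 - cr 3 w), cr 4 w] : Fin 5 → ℂ) j

theorem f14 {u v : ℂ} (hu : u ≠ 0) (hv : v ≠ 0) (hu1 : 1 - u ≠ 0) (hv1 : 1 - v ≠ 0)
    (huv : 1 - u * v ≠ 0) :
    1 - (1 / (u * v)) = -(1 - u * v) / (u * v) ∧
    1 - (u) = (1 - u) ∧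
    1 - (1 / (u * v)) * (u) = -(1 - v) / v := by
  have huv2 : 1 - v * u ≠ 0 := by rwa [mul_comm]
  refine ⟨?_, ?_, ?_⟩ <;> first | done | rfl | (field_simp; done) | (field_simp; ring1) | ring1

theorem f14' {u v : ℂ} (hu : u ≠ 0) (hv : v ≠ 0) (hu1 : 1 - u ≠ 0) (hv1 : 1 - v ≠ 0)
    (huv : 1 - u * v ≠ 0) :
    1 - (v) = (1 - v) ∧
    1 - (1 / (u * v)) = -(1 - u * v) / (u * v) ∧
    1 - (v) * (1 / (u * v)) = -(1 - u) / u := by
  have huv2 : 1 - v * u ≠ 0 := by rwa [mul_comm]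
  refine ⟨?_, ?_, ?_⟩ <;> first | done | rfl | (field_simp; done) | (field_simp; ring1) | ring1

theorem a14_maps : MapsTo g14 V V := fun w hw => by
    obtain ⟨hu, hv, hu1, hv1, huv⟩ := V_ne hw
    obtain ⟨h1, h2, h3⟩ := f14 hu hv hu1 hv1 huv
    refine mem_V (div_ne_zero one_ne_zero (mul_ne_zero hu hv)) hu ?_ ?_ ?_
    · rw [h1]; exact (div_ne_zero (neg_ne_zero.2 huv) (mul_ne_zero hu hv))
    · rw [h2]; exact hu1
    · rw [h3]; exact (div_ne_zero (neg_ne_zero.2 hv1) hv)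

theorem a14_maps' : MapsTo g14' V V := fun w hw => by
    obtain ⟨hu, hv, hu1, hv1, huv⟩ := V_ne hw
    obtain ⟨h1, h2, h3⟩ := f14' hu hv hu1 hv1 huv
    refine mem_V hv (div_ne_zero one_ne_zero (mul_ne_zero hu hv)) ?_ ?_ ?_
    · rw [h1]; exact hv1
    · rw [h2]; exact (div_ne_zero (neg_ne_zero.2 huv) (mul_ne_zero hu hv))
    · rw [h3]; exact (div_ne_zero (neg_ne_zero.2 hu1) hu)

theorem a14_diff : DifferentiableOn ℂ g14 V := fun w hw => by
    obtain ⟨hu, hv, hu1, hv1, huv⟩ := V_ne hw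
    refine (diff_pair (f := fun w => 1 / (w 0 * w 1)) (g := fun w => w 0) ?_ ?_).differentiableWithinAt
    · have hd := (mul_ne_zero hu hv)
      fun_prop (disch := assumption)
    · fun_prop (disch := assumption)

theorem a14_diff' : DifferentiableOn ℂ g14' V := fun w hw => by
    obtain ⟨hu, hv, hu1, hv1, huv⟩ := V_ne hw
    refine (diff_pair (f := fun w => w 1) (g := fun w => 1 / (w 0 * w 1)) ?_ ?_).differentiableWithinAt
    · fun_prop (disch := assumption)
    · have hd := (mul_ne_zero hu hv)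
      fun_prop (disch := assumption)

theorem a14_left : LeftInvOn g14' g14 V := fun w hw => by
    obtain ⟨hu, hv, hu1, hv1, huv⟩ := V_ne hw
    have huv2 : 1 - w 1 * w 0 ≠ 0 := by rwa [mul_comm]
    obtain ⟨a, ha⟩ : ∃ a : ℂ, a = 1 / (w 0 * w 1) := ⟨_, rfl⟩
    obtain ⟨b, hb⟩ : ∃ b : ℂ, b = w 0 := ⟨_, rfl⟩
    have hG : g14 w = ![a, b] := by rw [ha, hb]; rfl
    have h1 : 1 - a = -(1 - w 0 * w 1) / (w 0 * w 1) := by subst ha; exact (f14 hu hv hu1 hv1 huv).1
    have h2 : 1 - b = (1 - w 0) := by subst hb; exact (f14 hu hv hu1 hv1 huv).2.1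
    have h3 : 1 - a * b = -(1 - w 1) / w 1 := by subst ha hb; exact (f14 hu hv hu1 hv1 huv).2.2
    rw [hG]
    funext i
    fin_cases i
    · show b = w 0
      rw [hb]
      first | done | rfl | (field_simp; done) | (field_simp; ring1) | ring1
    · show 1 / (a * b) = w 1
      rw [ha, hb]
      first | done | rfl | (field_simp; done) | (field_simp; ring1) | ring1

theorem a14_right : LeftInvOn g14 g14' V := fun w hw => by
    obtain ⟨hu, hv, hu1, hv1, huv⟩ := V_ne hw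
    have huv2 : 1 - w 1 * w 0 ≠ 0 := by rwa [mul_comm]
    obtain ⟨a, ha⟩ : ∃ a : ℂ, a = w 1 := ⟨_, rfl⟩
    obtain ⟨b, hb⟩ : ∃ b : ℂ, b = 1 / (w 0 * w 1) := ⟨_, rfl⟩
    have hG : g14' w = ![a, b] := by rw [ha, hb]; rfl
    have h1 : 1 - a = (1 - w 1) := by subst ha; exact (f14' hu hv hu1 hv1 huv).1
    have h2 : 1 - b = -(1 - w 0 * w 1) / (w 0 * w 1) := by subst hb; exact (f14' hu hv hu1 hv1 huv).2.1
    have h3 : 1 - a * b = -(1 - w 0) / w 0 := by subst ha hb; exact (f14' hu hv hu1 hv1 huv).2.2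
    rw [hG]
    funext i
    fin_cases i
    · show 1 / (a * b) = w 0
      rw [ha, hb]
      first | done | rfl | (field_simp; done) | (field_simp; ring1) | ring1
    · show a = w 1
      rw [ha]
      first | done | rfl | (field_simp; done) | (field_simp; ring1) | ring1

theorem a14_mdiff : DifferentiableOn ℂ m14 V := fun w hw => by
    refine DifferentiableAt.differentiableWithinAt ?_
    show DifferentiableAt ℂ (fun w => ∏ j, (![1, cr 1 w, cr 2 w, (1 - cr 3 w), cr 4 w] : Fin 5 → ℂ) j) w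
    simp only [Fin.prod_univ_five]
    exact (((((differentiableAt_const 1).fun_mul (cr_diff hw 1)).fun_mul (cr_diff hw 2)).fun_mul ((differentiableAt_const 1).fun_sub (cr_diff hw 3))).fun_mul (cr_diff hw 4))

theorem a14_mne : ∀ w ∈ V, m14 w ≠ 0 := fun w hw => by
    refine Finset.prod_ne_zero_iff.2 fun j _ => ?_
    fin_cases j
    · exact one_ne_zero
    · exact (cr_ne hw 1).1
    · exact (cr_ne hw 2).1
    · exact (cr_ne hw 3).2
    · exact (cr_ne hw 4).1

theorem a14_wt : ∀ w ∈ V, Real.exp (phi (g14 w)) * ‖m14 w‖ ^ 2 = Real.exp (phi w) := fun w hw => by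
    obtain ⟨hu, hv, hu1, hv1, huv⟩ := V_ne hw
    have huv2 : 1 - w 1 * w 0 ≠ 0 := by rwa [mul_comm]
    obtain ⟨e3, e4⟩ := one_sub_cr hw
    obtain ⟨a, ha⟩ : ∃ a : ℂ, a = 1 / (w 0 * w 1) := ⟨_, rfl⟩
    obtain ⟨b, hb⟩ : ∃ b : ℂ, b = w 0 := ⟨_, rfl⟩
    have hG : g14 w = ![a, b] := by rw [ha, hb]; rfl
    have h1 : 1 - a = -(1 - w 0 * w 1) / (w 0 * w 1) := by subst ha; exact (f14 hu hv hu1 hv1 huv).1
    have h2 : 1 - b = (1 - w 0) := by subst hb; exact (f14 hu hv hu1 hv1 huv).2.1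
    have h3 : 1 - a * b = -(1 - w 1) / w 1 := by subst ha hb; exact (f14 hu hv hu1 hv1 huv).2.2
    rw [exp_phi_Nc, exp_phi_Nc]
    refine wt_prod ![1, 2, 0, 3, 4] (by decide) fun j => ?_
    rw [hG]
    fin_cases j
    · refine wt_id ?_
      show b = w 0
      rw [hb]
      first | done | rfl | (field_simp; done) | (field_simp; ring1) | ring1
    · refine wt_inv ?_
      show (a * b) * w 1 = 1
      rw [ha, hb]
      first | done | rfl | (field_simp; done) | (field_simp; ring1) | ring1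
    · refine wt_inv ?_
      show a * (w 0 * w 1) = 1
      rw [ha]
      first | done | rfl | (field_simp; done) | (field_simp; ring1) | ring1
    · refine wt_invsub ?_
      show (1 - a) / (1 - a * b) * (1 - (1 - w 0) / (1 - w 0 * w 1)) = 1
      rw [cr_three] at e3
      rw [h1, h3, e3]
      first | done | rfl | (field_simp; done) | (field_simp; ring1) | ring1
    · refine wt_subdiv ?_
      show (1 - b) / (1 - a * b) * ((1 - w 1) / (1 - w 0 * w 1)) = -(1 - (1 - w 1) / (1 - w 0 * w 1))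
      rw [cr_four] at e4
      rw [h2, h3, e4]
      first | done | rfl | (field_simp; done) | (field_simp; ring1) | ring1

theorem adm14 : Adm g14 g14' m14 :=
  ⟨a14_maps, a14_maps', a14_diff, a14_diff', a14_left, a14_right, a14_mdiff, a14_mne, a14_wt⟩

/-! ### node 15 -/

noncomputable def g15 (w : Fin 2 → ℂ) : Fin 2 → ℂ := ![w 0, (1 - w 1) / (1 - w 0 * w 1)]
noncomputable def g15' (w : Fin 2 → ℂ) : Fin 2 → ℂ := ![w 0, (1 - w 1) / (1 - w 0 * w 1)]
noncomputable def m15 (w : Fin 2 → ℂ) : ℂ := ∏ j, (![1, 1, 1, 1, 1] : Fin 5 → ℂ) j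

theorem f15 {u v : ℂ} (hu : u ≠ 0) (hv : v ≠ 0) (hu1 : 1 - u ≠ 0) (hv1 : 1 - v ≠ 0)
    (huv : 1 - u * v ≠ 0) :
    1 - (u) = (1 - u) ∧
    1 - ((1 - v) / (1 - u * v)) = (v * (1 - u)) / (1 - u * v) ∧
    1 - (u) * ((1 - v) / (1 - u * v)) = (1 - u) / (1 - u * v) := by
  have huv2 : 1 - v * u ≠ 0 := by rwa [mul_comm]
  refine ⟨?_, ?_, ?_⟩ <;> first | done | rfl | (field_simp; done) | (field_simp; ring1) | ring1

theorem f15' {u v : ℂ} (hu : u ≠ 0) (hv : v ≠ 0) (hu1 : 1 - u ≠ 0) (hv1 : 1 - v ≠ 0)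
    (huv : 1 - u * v ≠ 0) :
    1 - (u) = (1 - u) ∧
    1 - ((1 - v) / (1 - u * v)) = (v * (1 - u)) / (1 - u * v) ∧
    1 - (u) * ((1 - v) / (1 - u * v)) = (1 - u) / (1 - u * v) := by
  have huv2 : 1 - v * u ≠ 0 := by rwa [mul_comm]
  refine ⟨?_, ?_, ?_⟩ <;> first | done | rfl | (field_simp; done) | (field_simp; ring1) | ring1

theorem a15_maps : MapsTo g15 V V := fun w hw => by
    obtain ⟨hu, hv, hu1, hv1, huv⟩ := V_ne hw
    obtain ⟨h1, h2, h3⟩ := f15 hu hv hu1 hv1 huv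
    refine mem_V hu (div_ne_zero hv1 huv) ?_ ?_ ?_
    · rw [h1]; exact hu1
    · rw [h2]; exact (div_ne_zero (mul_ne_zero hv hu1) huv)
    · rw [h3]; exact (div_ne_zero hu1 huv)

theorem a15_maps' : MapsTo g15' V V := fun w hw => by
    obtain ⟨hu, hv, hu1, hv1, huv⟩ := V_ne hw
    obtain ⟨h1, h2, h3⟩ := f15' hu hv hu1 hv1 huv
    refine mem_V hu (div_ne_zero hv1 huv) ?_ ?_ ?_
    · rw [h1]; exact hu1
    · rw [h2]; exact (div_ne_zero (mul_ne_zero hv hu1) huv)
    · rw [h3]; exact (div_ne_zero hu1 huv)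

theorem a15_diff : DifferentiableOn ℂ g15 V := fun w hw => by
    obtain ⟨hu, hv, hu1, hv1, huv⟩ := V_ne hw
    refine (diff_pair (f := fun w => w 0) (g := fun w => (1 - w 1) / (1 - w 0 * w 1)) ?_ ?_).differentiableWithinAt
    · fun_prop (disch := assumption)
    · fun_prop (disch := assumption)

theorem a15_diff' : DifferentiableOn ℂ g15' V := fun w hw => by
    obtain ⟨hu, hv, hu1, hv1, huv⟩ := V_ne hw
    refine (diff_pair (f := fun w => w 0) (g := fun w => (1 - w 1) / (1 - w 0 * w 1)) ?_ ?_).differentiableWithinAt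
    · fun_prop (disch := assumption)
    · fun_prop (disch := assumption)

theorem a15_left : LeftInvOn g15' g15 V := fun w hw => by
    obtain ⟨hu, hv, hu1, hv1, huv⟩ := V_ne hw
    have huv2 : 1 - w 1 * w 0 ≠ 0 := by rwa [mul_comm]
    obtain ⟨a, ha⟩ : ∃ a : ℂ, a = w 0 := ⟨_, rfl⟩
    obtain ⟨b, hb⟩ : ∃ b : ℂ, b = (1 - w 1) / (1 - w 0 * w 1) := ⟨_, rfl⟩
    have hG : g15 w = ![a, b] := by rw [ha, hb]; rfl
    have h1 : 1 - a = (1 - w 0) := by subst ha; exact (f15 hu hv hu1 hv1 huv).1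
    have h2 : 1 - b = (w 1 * (1 - w 0)) / (1 - w 0 * w 1) := by subst hb; exact (f15 hu hv hu1 hv1 huv).2.1
    have h3 : 1 - a * b = (1 - w 0) / (1 - w 0 * w 1) := by subst ha hb; exact (f15 hu hv hu1 hv1 huv).2.2
    rw [hG]
    funext i
    fin_cases i
    · show a = w 0
      rw [ha]
      first | done | rfl | (field_simp; done) | (field_simp; ring1) | ring1
    · show (1 - b) / (1 - a * b) = w 1
      rw [h2, h3]
      first | done | rfl | (field_simp; done) | (field_simp; ring1) | ring1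

theorem a15_right : LeftInvOn g15 g15' V := fun w hw => by
    obtain ⟨hu, hv, hu1, hv1, huv⟩ := V_ne hw
    have huv2 : 1 - w 1 * w 0 ≠ 0 := by rwa [mul_comm]
    obtain ⟨a, ha⟩ : ∃ a : ℂ, a = w 0 := ⟨_, rfl⟩
    obtain ⟨b, hb⟩ : ∃ b : ℂ, b = (1 - w 1) / (1 - w 0 * w 1) := ⟨_, rfl⟩
    have hG : g15' w = ![a, b] := by rw [ha, hb]; rfl
    have h1 : 1 - a = (1 - w 0) := by subst ha; exact (f15' hu hv hu1 hv1 huv).1
    have h2 : 1 - b = (w 1 * (1 - w 0)) / (1 - w 0 * w 1) := by subst hb; exact (f15' hu hv hu1 hv1 huv).2.1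
    have h3 : 1 - a * b = (1 - w 0) / (1 - w 0 * w 1) := by subst ha hb; exact (f15' hu hv hu1 hv1 huv).2.2
    rw [hG]
    funext i
    fin_cases i
    · show a = w 0
      rw [ha]
      first | done | rfl | (field_simp; done) | (field_simp; ring1) | ring1
    · show (1 - b) / (1 - a * b) = w 1
      rw [h2, h3]
      first | done | rfl | (field_simp; done) | (field_simp; ring1) | ring1

theorem a15_mdiff : DifferentiableOn ℂ m15 V := fun w hw => by
    refine DifferentiableAt.differentiableWithinAt ?_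
    show DifferentiableAt ℂ (fun w => ∏ j, (![1, 1, 1, 1, 1] : Fin 5 → ℂ) j) w
    simp only [Fin.prod_univ_five]
    exact (((((differentiableAt_const 1).fun_mul (differentiableAt_const 1)).fun_mul (differentiableAt_const 1)).fun_mul (differentiableAt_const 1)).fun_mul (differentiableAt_const 1))

theorem a15_mne : ∀ w ∈ V, m15 w ≠ 0 := fun w hw => by
    refine Finset.prod_ne_zero_iff.2 fun j _ => ?_
    fin_cases j
    · exact one_ne_zero
    · exact one_ne_zero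
    · exact one_ne_zero
    · exact one_ne_zero
    · exact one_ne_zero

theorem a15_wt : ∀ w ∈ V, Real.exp (phi (g15 w)) * ‖m15 w‖ ^ 2 = Real.exp (phi w) := fun w hw => by
    obtain ⟨hu, hv, hu1, hv1, huv⟩ := V_ne hw
    have huv2 : 1 - w 1 * w 0 ≠ 0 := by rwa [mul_comm]
    obtain ⟨e3, e4⟩ := one_sub_cr hw
    obtain ⟨a, ha⟩ : ∃ a : ℂ, a = w 0 := ⟨_, rfl⟩
    obtain ⟨b, hb⟩ : ∃ b : ℂ, b = (1 - w 1) / (1 - w 0 * w 1) := ⟨_, rfl⟩
    have hG : g15 w = ![a, b] := by rw [ha, hb]; rfl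
    have h1 : 1 - a = (1 - w 0) := by subst ha; exact (f15 hu hv hu1 hv1 huv).1
    have h2 : 1 - b = (w 1 * (1 - w 0)) / (1 - w 0 * w 1) := by subst hb; exact (f15 hu hv hu1 hv1 huv).2.1
    have h3 : 1 - a * b = (1 - w 0) / (1 - w 0 * w 1) := by subst ha hb; exact (f15 hu hv hu1 hv1 huv).2.2
    rw [exp_phi_Nc, exp_phi_Nc]
    refine wt_prod ![0, 4, 3, 2, 1] (by decide) fun j => ?_
    rw [hG]
    fin_cases j
    · refine wt_id ?_
      show a = w 0
      rw [ha]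
      first | done | rfl | (field_simp; done) | (field_simp; ring1) | ring1
    · refine wt_id ?_
      show (1 - b) / (1 - a * b) = w 1
      rw [h2, h3]
      first | done | rfl | (field_simp; done) | (field_simp; ring1) | ring1
    · refine wt_sub ?_
      show (1 - a) / (1 - a * b) = (1 - w 0 * w 1)
      rw [h1, h3]
      first | done | rfl | (field_simp; done) | (field_simp; ring1) | ring1
    · refine wt_sub ?_
      show a * b = (1 - (1 - w 0) / (1 - w 0 * w 1))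
      rw [cr_three] at e3
      rw [ha, hb, e3]
      first | done | rfl | (field_simp; done) | (field_simp; ring1) | ring1
    · refine wt_id ?_
      show b = ((1 - w 1) / (1 - w 0 * w 1))
      rw [hb]
      first | done | rfl | (field_simp; done) | (field_simp; ring1) | ring1

theorem adm15 : Adm g15 g15' m15 :=
  ⟨a15_maps, a15_maps', a15_diff, a15_diff', a15_left, a15_right, a15_mdiff, a15_mne, a15_wt⟩

/-! ### all nodes -/

/-- the transition from the node chart `ν` to the chart `5` of the table `H142.kap`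
(`kap 5 (u, v) = (v, u v)`) -/
noncomputable def gN : Fin 15 → (Fin 2 → ℂ) → (Fin 2 → ℂ)
  | 0 => g0
  | 1 => g1
  | 2 => g2
  | 3 => g3
  | 4 => g4
  | 5 => id
  | 6 => g6
  | 7 => g7
  | 8 => g8
  | 9 => g9
  | 10 => g10
  | 11 => g11
  | 12 => g12
  | 13 => g13
  | 14 => g14

/-- its inverse -/
noncomputable def gN' : Fin 15 → (Fin 2 → ℂ) → (Fin 2 → ℂ)
  | 0 => g0'
  | 1 => g1'
  | 2 => g2'
  | 3 => g3'
  | 4 => g4'
  | 5 => id
  | 6 => g6'
  | 7 => g7'
  | 8 => g8'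
  | 9 => g9'
  | 10 => g10'
  | 11 => g11'
  | 12 => g12'
  | 13 => g13'
  | 14 => g14'

/-- the factor -/
noncomputable def mN : Fin 15 → (Fin 2 → ℂ) → ℂ
  | 0 => m0
  | 1 => m1
  | 2 => m2
  | 3 => m3
  | 4 => m4
  | 5 => fun _ => 1
  | 6 => m6
  | 7 => m7
  | 8 => m8
  | 9 => m9
  | 10 => m10
  | 11 => m11
  | 12 => m12
  | 13 => m13
  | 14 => m14

/-- **[GROW]** All the changes of node are admissible. -/
theorem adm_node : ∀ ν, Adm (gN ν) (gN' ν) (mN ν)
  | 0 => adm0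
  | 1 => adm1
  | 2 => adm2
  | 3 => adm3
  | 4 => adm4
  | 5 => Adm.refl
  | 6 => adm6
  | 7 => adm7
  | 8 => adm8
  | 9 => adm9
  | 10 => adm10
  | 11 => adm11
  | 12 => adm12
  | 13 => adm13
  | 14 => adm14

/-- The change of node in terms of the table `H142.kap`. -/
theorem kap_gN (ν : Fin 15) {w : Fin 2 → ℂ} (hw : w ∈ V) :
    H142.kap ν (w 0, w 1) = H142.kap 5 (gN ν w 0, gN ν w 1) := by
  obtain ⟨hu, hv, hu1, hv1, huv⟩ := V_ne hw
  have huv' : w 0 * w 1 ≠ 0 := mul_ne_zero hu hv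
  have huv2 : 1 - w 1 * w 0 ≠ 0 := by rwa [mul_comm]
  fin_cases ν
  · show H142.kap 0 (w 0, w 1) = H142.kap 5 ((w 0 * (1 - w 1)) / (1 - w 0 * w 1), (1 - w 0 * w 1) / (1 - w 1))
    simp only [H142.kap]
    refine Prod.ext ?_ ?_
    · first | rfl | (simp only []; field_simp; done) | (simp only []; field_simp; ring1)
    · first | rfl | (simp only []; field_simp; done) | (simp only []; field_simp; ring1)
  · show H142.kap 1 (w 0, w 1) = H142.kap 5 (w 0 * w 1, 1 / w 1)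
    simp only [H142.kap]
    refine Prod.ext ?_ ?_
    · first | rfl | (simp only []; field_simp; done) | (simp only []; field_simp; ring1)
    · first | rfl | (simp only []; field_simp; done) | (simp only []; field_simp; ring1)
  · show H142.kap 2 (w 0, w 1) = H142.kap 5 ((w 1 * (1 - w 0)) / (1 - w 0 * w 1), 1 / w 1)
    simp only [H142.kap]
    refine Prod.ext ?_ ?_
    · first | rfl | (simp only []; field_simp; done) | (simp only []; field_simp; ring1)
    · first | rfl | (simp only []; field_simp; done) | (simp only []; field_simp; ring1)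
  · show H142.kap 3 (w 0, w 1) = H142.kap 5 ((1 - w 1), (1 - w 0 * w 1) / (1 - w 1))
    simp only [H142.kap]
    refine Prod.ext ?_ ?_
    · first | rfl | (simp only []; field_simp; done) | (simp only []; field_simp; ring1)
    · first | rfl | (simp only []; field_simp; done) | (simp only []; field_simp; ring1)
  · show H142.kap 4 (w 0, w 1) = H142.kap 5 ((1 - w 1), 1 / (1 - w 0 * w 1))
    simp only [H142.kap]
    refine Prod.ext ?_ ?_
    · first | rfl | (simp only []; field_simp; done) | (simp only []; field_simp; ring1)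
    · first | rfl | (simp only []; field_simp; done) | (simp only []; field_simp; ring1)
  · rfl
  · show H142.kap 6 (w 0, w 1) = H142.kap 5 ((1 - w 0) / (1 - w 0 * w 1), w 1)
    simp only [H142.kap]
    refine Prod.ext ?_ ?_
    · first | rfl | (simp only []; field_simp; done) | (simp only []; field_simp; ring1)
    · first | rfl | (simp only []; field_simp; done) | (simp only []; field_simp; ring1)
  · show H142.kap 7 (w 0, w 1) = H142.kap 5 ((1 - w 0 * w 1), (1 - w 1) / (1 - w 0 * w 1))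
    simp only [H142.kap]
    refine Prod.ext ?_ ?_
    · first | rfl | (simp only []; field_simp; done) | (simp only []; field_simp; ring1)
    · first | rfl | (simp only []; field_simp; done) | (simp only []; field_simp; ring1)
  · show H142.kap 8 (w 0, w 1) = H142.kap 5 (1 / w 0, (w 0 * (1 - w 1)) / (1 - w 0 * w 1))
    simp only [H142.kap]
    refine Prod.ext ?_ ?_
    · first | rfl | (simp only []; field_simp; done) | (simp only []; field_simp; ring1)
    · first | rfl | (simp only []; field_simp; done) | (simp only []; field_simp; ring1)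
  · show H142.kap 9 (w 0, w 1) = H142.kap 5 (1 / w 0, w 0 * w 1)
    simp only [H142.kap]
    refine Prod.ext ?_ ?_
    · first | rfl | (simp only []; field_simp; done) | (simp only []; field_simp; ring1)
    · first | rfl | (simp only []; field_simp; done) | (simp only []; field_simp; ring1)
  · show H142.kap 10 (w 0, w 1) = H142.kap 5 ((1 - w 0) / (1 - w 0 * w 1), (1 - w 0 * w 1) / (w 1 * (1 - w 0)))
    simp only [H142.kap]
    refine Prod.ext ?_ ?_
    · first | rfl | (simp only []; field_simp; done) | (simp only []; field_simp; ring1)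
    · first | rfl | (simp only []; field_simp; done) | (simp only []; field_simp; ring1)
  · show H142.kap 11 (w 0, w 1) = H142.kap 5 (w 0, 1 / (w 0 * w 1))
    simp only [H142.kap]
    refine Prod.ext ?_ ?_
    · first | rfl | (simp only []; field_simp; done) | (simp only []; field_simp; ring1)
    · first | rfl | (simp only []; field_simp; done) | (simp only []; field_simp; ring1)
  · show H142.kap 12 (w 0, w 1) = H142.kap 5 (1 / w 0, 1 / w 1)
    simp only [H142.kap]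
    refine Prod.ext ?_ ?_
    · first | rfl | (simp only []; field_simp; done) | (simp only []; field_simp; ring1)
    · first | rfl | (simp only []; field_simp; done) | (simp only []; field_simp; ring1)
  · show H142.kap 13 (w 0, w 1) = H142.kap 5 (1 / w 1, (1 - w 0 * w 1) / (1 - w 0))
    simp only [H142.kap]
    refine Prod.ext ?_ ?_
    · first | rfl | (simp only []; field_simp; done) | (simp only []; field_simp; ring1)
    · first | rfl | (simp only []; field_simp; done) | (simp only []; field_simp; ring1)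
  · show H142.kap 14 (w 0, w 1) = H142.kap 5 (1 / (w 0 * w 1), w 0)
    simp only [H142.kap]
    refine Prod.ext ?_ ?_
    · first | rfl | (simp only []; field_simp; done) | (simp only []; field_simp; ring1)
    · first | rfl | (simp only []; field_simp; done) | (simp only []; field_simp; ring1)

/-- The extra chart. -/
theorem kapX_g15 {w : Fin 2 → ℂ} (hw : w ∈ V) :
    H142.kapX (w 0, w 1) = H142.kap 5 (g15 w 0, g15 w 1) := by
  obtain ⟨hu, hv, hu1, hv1, huv⟩ := V_ne hw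
  have huv' : w 0 * w 1 ≠ 0 := mul_ne_zero hu hv
  have huv2 : 1 - w 1 * w 0 ≠ 0 := by rwa [mul_comm]
  show H142.kapX (w 0, w 1) = H142.kap 5 (w 0, (1 - w 1) / (1 - w 0 * w 1))
  simp only [H142.kap, H142.kapX]
  refine Prod.ext ?_ ?_
  · first | rfl | (simp only []; field_simp; done) | (simp only []; field_simp; ring1)
  · first | rfl | (simp only []; field_simp; done) | (simp only []; field_simp; ring1)

/-- `kap 5` is injective on `V` -/
theorem kap5_inj {a b c d : ℂ} (hb : b ≠ 0) (h : H142.kap 5 (a, b) = H142.kap 5 (c, d)) :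
    a = c ∧ b = d := by
  simp only [H142.kap, Prod.mk.injEq] at h
  obtain ⟨h1, h2⟩ := h
  subst h1
  exact ⟨mul_right_cancel₀ hb h2, rfl⟩

/-- the change of chart from `ν` to `μ` -/
noncomputable def tr (μ ν : Fin 15) (w : Fin 2 → ℂ) : Fin 2 → ℂ := gN' μ (gN ν w)

/-- its factor -/
noncomputable def mtr (μ ν : Fin 15) (w : Fin 2 → ℂ) : ℂ :=
  (mN μ (gN' μ (gN ν w)))⁻¹ * mN ν w

theorem adm_tr (μ ν : Fin 15) : Adm (tr μ ν) (tr ν μ) (mtr μ ν) :=
  (adm_node μ).symm.comp (adm_node ν)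

theorem kap_tr (μ ν : Fin 15) {w : Fin 2 → ℂ} (hw : w ∈ V) :
    H142.kap ν (w 0, w 1) = H142.kap μ (tr μ ν w 0, tr μ ν w 1) := by
  rw [kap_gN ν hw, kap_gN μ ((adm_tr μ ν).maps w hw)]
  have h : gN μ (tr μ ν w) = gN ν w := (adm_node μ).right _ ((adm_node ν).maps w hw)
  rw [h]

/-- `w ↦ kap ν w` is injective on `V`, and `kap ν w = kap μ w'` iff `w' = tr μ ν w`. -/
theorem kap_eq_iff (μ ν : Fin 15) {w w' : Fin 2 → ℂ} (hw : w ∈ V) (hw' : w' ∈ V) :
    H142.kap ν (w 0, w 1) = H142.kap μ (w' 0, w' 1) ↔ w' = tr μ ν w := by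
  constructor
  · intro h
    rw [kap_gN ν hw, kap_gN μ hw'] at h
    have h1 := kap5_inj (V_ne ((adm_node ν).maps w hw)).2.1 h
    have h2 : gN μ w' = gN ν w := by
      funext i
      fin_cases i
      · exact h1.1.symm
      · exact h1.2.symm
    rw [tr, ← h2, (adm_node μ).left w' hw']
  · rintro rfl
    exact kap_tr μ ν hw

end Vale.Agent.P300.H435
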