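import Vale.Agent.P300.H266.Sys
import Vale.Agent.P300.H327.Null
import Vale.Agent.P300.H813.Jet

/-!
# P300 / PROJ, block JETS, step (B): the 1-jets in the node charts
-/

set_option autoImplicit false

open Set Filter Topology Metric MeasureTheory

open scoped ENNReal

namespace Vale.Agent.P300.H435

open Vale.Agent.P300.H266

variable {X₀ : Type} [TopologicalSpace X₀] {pr : X₀ → Fin 2 → ℂ}

theorem lintegral_ball_shift {g : (Fin 2 → ℂ) → ℝ≥0∞} {x1 : Fin 2 → ℂ} {ρ : ℝ} :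
    ∫⁻ x in ball (0 : Fin 2 → ℂ) ρ, g (x1 + x) = ∫⁻ x in ball x1 ρ, g x := by
  have h1 : MeasurePreserving (fun x : Fin 2 → ℂ => x1 + x) volume volume :=
    measurePreserving_add_left volume x1
  have h2 : (fun x : Fin 2 → ℂ => x1 + x) ⁻¹' (ball x1 ρ) = ball 0 ρ := by
    ext x
    simp
  have h3 := h1.setLIntegral_comp_preimage_emb (measurableEmbedding_addLeft x1) g (ball x1 ρ)
  rw [h2] at h3
  exact h3

theorem jetB (D : NodeSys X₀ pr) (ν : D.Nd) (s : D.ι ν) {F0 f : X₀ → ℂ} {w : Fin 2 → ℂ} {r : ℝ}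
    (hr : 0 < r)
    (hI : ∀ (κ : (Fin 2 → ℂ) → X₀) (B : Set (Fin 2 → ℂ)), IsChart (D.co ν) κ B →
      ∫⁻ x in B ∩ {x | vz w (D.co ν (κ x)) ≤ r / 2},
        ENNReal.ofReal (‖F0 (κ x) - f (κ x)‖ ^ 2 * ‖jac (D.co ν) κ x‖ ^ 2 *
          (vz w (D.co ν (κ x)) ^ 3)⁻¹) < ⊤)
    {x1 : Fin 2 → ℂ} (hx1 : x1 ∈ D.Full ν s) (hw : D.pwr ν s x1 = w)
    {h : (Fin 2 → ℂ) → ℂ} (hh : DifferentiableAt ℂ h x1)
    (hf : ∀ x ∈ D.Int ν s, f (D.θ ν s x) * jac (D.co ν) (D.θ ν s) x = h x)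
    {G : (Fin 2 → ℂ) → ℂ} (hG : DifferentiableOn ℂ G (D.Full ν s))
    (hGe : ∀ x ∈ D.Int ν s, G x = F0 (D.θ ν s x) * jac (D.co ν) (D.θ ν s) x) :
    G x1 = h x1 ∧ fderiv ℂ G x1 = fderiv ℂ h x1 := by
  have hGd : DifferentiableAt ℂ G x1 := hG.differentiableAt (isOpen_Of.mem_nhds hx1)
  -- the difference
  have hd : HasFDerivAt (fun x => G (x1 + x) - h (x1 + x)) (fderiv ℂ G x1 - fderiv ℂ h x1) 0 := by
    have h1 : HasFDerivAt (fun x : Fin 2 → ℂ => x1 + x) (ContinuousLinearMap.id ℂ (Fin 2 → ℂ)) 0 :=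
      (hasFDerivAt_id 0).const_add x1
    have h2 : HasFDerivAt G (fderiv ℂ G x1) (x1 + 0) := by
      rw [add_zero]; exact hGd.hasFDerivAt
    have h3 : HasFDerivAt h (fderiv ℂ h x1) (x1 + 0) := by
      rw [add_zero]; exact hh.hasFDerivAt
    have h4 := (h2.comp 0 h1).sub (h3.comp 0 h1)
    rw [ContinuousLinearMap.comp_id, ContinuousLinearMap.comp_id] at h4
    exact h4
  -- the radius
  obtain ⟨C, hC, ρ1, hρ1, hvz⟩ := Vale.Agent.P300.H327.vz_local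
    (f := D.pwr ν s) (x₀ := x1) (differentiable_pw x1)
  have hiso := isolated (D.p_pos ν s) (D.q_pos ν s) x1
  obtain ⟨ρ2, hρ2, hb2⟩ := Metric.eventually_nhds_iff_ball.1
    (hiso.and (isOpen_Of.mem_nhds hx1))
  obtain ⟨ρ3, hρ3, hb3⟩ : ∃ ρ3 : ℝ, 0 < ρ3 ∧ C * ρ3 ^ 2 ≤ r / 2 := by
    refine ⟨Real.sqrt (r / 2 / C), Real.sqrt_pos.2 (by positivity), ?_⟩
    rw [Real.sq_sqrt (by positivity)]
    field_simp
    exact le_refl _
  obtain ⟨ρ, hρ, hρa, hρb, hρc⟩ : ∃ ρ : ℝ, 0 < ρ ∧ ρ ≤ ρ1 ∧ ρ ≤ ρ2 ∧ ρ ≤ ρ3 :=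
    ⟨min ρ1 (min ρ2 ρ3), lt_min hρ1 (lt_min hρ2 hρ3), min_le_left _ _,
      (min_le_right _ _).trans (min_le_left _ _), (min_le_right _ _).trans (min_le_right _ _)⟩
  have hvle : ∀ x ∈ ball x1 ρ, vz w (D.pwr ν s x) ≤ C * ‖x - x1‖ ^ 2 := by
    intro x hx
    rw [← hw]
    exact hvz x (ball_subset_closedBall (ball_subset_ball hρa hx))
  have hvr : ∀ x ∈ ball x1 ρ, vz w (D.pwr ν s x) ≤ r / 2 := by
    intro x hx
    refine (hvle x hx).trans (le_trans ?_ hb3)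
    have h1 : ‖x - x1‖ < ρ := by rwa [mem_ball_iff_norm] at hx
    have h2 : ‖x - x1‖ ^ 2 ≤ ρ3 ^ 2 :=
      pow_le_pow_left₀ (norm_nonneg _) (h1.le.trans hρc) 2
    exact mul_le_mul_of_nonneg_left h2 hC.le
  -- the pointwise inequality
  have hpt : ∀ x ∈ ball x1 ρ, x ∈ D.Int ν s →
      ‖G x - h x‖ₑ ^ 2 * ENNReal.ofReal ((‖x - x1‖ ^ 6)⁻¹) ≤
        ENNReal.ofReal (C ^ 3) * ENNReal.ofReal (‖F0 (D.θ ν s x) - f (D.θ ν s x)‖ ^ 2 *
          ‖jac (D.co ν) (D.θ ν s) x‖ ^ 2 * (vz w (D.co ν (D.θ ν s x)) ^ 3)⁻¹) := by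
    intro x hx hxi
    rw [NodeSys.co_θ hxi]
    have h1 : G x - h x = (F0 (D.θ ν s x) - f (D.θ ν s x)) * jac (D.co ν) (D.θ ν s) x := by
      rw [hGe x hxi, ← hf x hxi]; ring
    rw [h1, ← ofReal_norm, ← ENNReal.ofReal_pow (norm_nonneg _),
      ← ENNReal.ofReal_mul (by positivity), ← ENNReal.ofReal_mul (by positivity)]
    refine ENNReal.ofReal_le_ofReal ?_
    rw [norm_mul, mul_pow]
    have h2 : (‖x - x1‖ ^ 6)⁻¹ ≤ C ^ 3 * (vz w (D.pwr ν s x) ^ 3)⁻¹ := by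
      rcases eq_or_ne x x1 with rfl | hne
      · rw [sub_self, norm_zero]
        have : 0 ≤ vz w (D.pwr ν s x) := Vale.Agent.P300.H327.vz_nonneg _ _
        simp only [ne_eq, OfNat.ofNat_ne_zero, not_false_eq_true, zero_pow, inv_zero]
        positivity
      · have h3 : 0 < ‖x - x1‖ := norm_pos_iff.2 (sub_ne_zero.2 hne)
        have h4 : 0 < vz w (D.pwr ν s x) := by
          refine vz_pos fun h5 => hne ?_
          exact (hb2 x (ball_subset_ball hρb hx)).1 (h5.trans hw.symm)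
        have h5 : vz w (D.pwr ν s x) ^ 3 ≤ C ^ 3 * ‖x - x1‖ ^ 6 := by
          have := pow_le_pow_left₀ h4.le (hvle x hx) 3
          calc vz w (D.pwr ν s x) ^ 3 ≤ (C * ‖x - x1‖ ^ 2) ^ 3 := this
            _ = C ^ 3 * ‖x - x1‖ ^ 6 := by ring
        rw [← div_eq_mul_inv, le_div_iff₀ (by positivity), inv_mul_le_iff₀ (by positivity),
          mul_comm]
        exact h5
    have h6 : 0 ≤ ‖F0 (D.θ ν s x) - f (D.θ ν s x)‖ ^ 2 * ‖jac (D.co ν) (D.θ ν s) x‖ ^ 2 := by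
      positivity
    calc _ ≤ ‖F0 (D.θ ν s x) - f (D.θ ν s x)‖ ^ 2 * ‖jac (D.co ν) (D.θ ν s) x‖ ^ 2 *
          (C ^ 3 * (vz w (D.pwr ν s x) ^ 3)⁻¹) := mul_le_mul_of_nonneg_left h2 h6
      _ = _ := by ring
  have hfin : ∫⁻ x in ball x1 ρ, ‖G x - h x‖ₑ ^ 2 * ENNReal.ofReal ((‖x - x1‖ ^ 6)⁻¹) < ⊤ := by
    have hch := NodeSys.isChart (D := D) (ν := ν) (s := s) ν
    have hI1 := hI _ _ hch
    have hsub : ∀ᵐ x ∂(volume.restrict (ball x1 ρ)),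
        ‖G x - h x‖ₑ ^ 2 * ENNReal.ofReal ((‖x - x1‖ ^ 6)⁻¹) ≤
        (D.Int ν s ∩ {x | vz w (D.co ν (D.θ ν s x)) ≤ r / 2}).indicator (fun x =>
          ENNReal.ofReal (C ^ 3) * ENNReal.ofReal (‖F0 (D.θ ν s x) - f (D.θ ν s x)‖ ^ 2 *
          ‖jac (D.co ν) (D.θ ν s) x‖ ^ 2 * (vz w (D.co ν (D.θ ν s x)) ^ 3)⁻¹)) x := by
      refine (ae_restrict_iff' measurableSet_ball).2 ?_
      filter_upwards [Vale.Agent.P300.H327.ae_offAxes] with x hx hxb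
      have hxi : x ∈ D.Int ν s := ⟨(hb2 x (ball_subset_ball hρb hxb)).2, mul_ne_zero hx.1 hx.2⟩
      have hmem : x ∈ D.Int ν s ∩ {x | vz w (D.co ν (D.θ ν s x)) ≤ r / 2} := by
        refine ⟨hxi, ?_⟩
        show vz w (D.co ν (D.θ ν s x)) ≤ r / 2
        rw [NodeSys.co_θ hxi]
        exact hvr x hxb
      rw [indicator_of_mem hmem]
      exact hpt x hxb hxi
    refine lt_of_le_of_lt (lintegral_mono_ae hsub) ?_
    refine lt_of_le_of_lt (lintegral_indicator_le _ _) ?_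
    refine lt_of_le_of_lt (lintegral_mono' (Measure.restrict_mono le_rfl Measure.restrict_le_self)
      le_rfl) ?_
    rw [lintegral_const_mul' _ _ ENNReal.ofReal_ne_top]
    exact ENNReal.mul_lt_top ENNReal.ofReal_lt_top hI1
  have hj := Vale.Agent.P300.H813.jet_one (n := 2) (g := fun x => G (x1 + x) - h (x1 + x))
    (m := 6) (by norm_num) (by norm_num) hρ hd (by
      have h1 := lintegral_ball_shift (g := fun x => ‖G x - h x‖ₑ ^ 2 *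
        ENNReal.ofReal ((‖x - x1‖ ^ 6)⁻¹)) (x1 := x1) (ρ := ρ)
      simp only [add_sub_cancel_left] at h1
      rw [h1]
      exact hfin.ne)
  refine ⟨?_, sub_eq_zero.1 hj.2⟩
  have h1 := hj.1
  simp only [add_zero] at h1
  exact sub_eq_zero.1 h1

end Vale.Agent.P300.H435
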